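import Mathlib
import Vale.Agent.P109.Sol.Step

/-! Groups of circle points: torsion elements and adapted bases modulo torsion (P109). -/

open Set

namespace Vale.Agent.P109.Mix

variable {n : ℕ}

/-- Torsion points. -/
def IsTor (x : UnitAddCircle) : Prop := ∃ k : ℤ, k ≠ 0 ∧ k • x = 0

lemma IsTor.zero : IsTor (0 : UnitAddCircle) := ⟨1, one_ne_zero, by simp⟩

lemma IsTor.zsmul {x : UnitAddCircle} (h : IsTor x) (a : ℤ) : IsTor (a • x) := by
  obtain ⟨k, hk, hx⟩ := h
  exact ⟨k, hk, by rw [smul_comm, hx, smul_zero]⟩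

lemma IsTor.of_zsmul {x : UnitAddCircle} {a : ℤ} (ha : a ≠ 0) (h : IsTor (a • x)) : IsTor x := by
  obtain ⟨k, hk, hx⟩ := h
  exact ⟨k * a, mul_ne_zero hk ha, by rw [mul_smul, hx]⟩

lemma IsTor.add {x y : UnitAddCircle} (hx : IsTor x) (hy : IsTor y) : IsTor (x + y) := by
  obtain ⟨a, ha, ha'⟩ := hx
  obtain ⟨b, hb, hb'⟩ := hy
  refine ⟨a * b, mul_ne_zero ha hb, ?_⟩
  rw [smul_add, mul_smul a b y, hb', smul_zero, add_zero, mul_comm, mul_smul, ha', smul_zero]

/-- The point `1 / q`. -/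
noncomputable def zeta (q : ℕ) : UnitAddCircle := ((1 / (q:ℝ) : ℝ) : UnitAddCircle)

lemma zsmul_zeta (q : ℕ) (a : ℤ) : a • zeta q = (((a:ℝ) / q : ℝ) : UnitAddCircle) := by
  rw [zeta, ← AddCircle.coe_zsmul, zsmul_eq_mul, mul_one_div]

lemma zeta_self {q : ℕ} (hq : 0 < q) : (q:ℤ) • zeta q = 0 := by
  rw [zsmul_zeta, AddCircle.coe_eq_zero_iff]
  exact ⟨1, by simp; field_simp⟩

lemma zeta_tor {q : ℕ} (hq : 0 < q) : IsTor (zeta q) := ⟨q, by omega, zeta_self hq⟩

lemma zeta_mul (q k : ℕ) (hk : 0 < k) : zeta q = (k:ℤ) • zeta (q * k) := by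
  rw [zsmul_zeta, zeta]
  congr 1
  have : (k:ℝ) ≠ 0 := by positivity
  push_cast
  field_simp

lemma zeta_dvd {q N : ℕ} (h : q ∣ N) (hN : 0 < N) : ∃ a : ℤ, zeta q = a • zeta N := by
  obtain ⟨k, rfl⟩ := h
  exact ⟨k, zeta_mul q k (Nat.pos_of_mul_pos_left hN)⟩

lemma tor_rep {x : UnitAddCircle} (h : IsTor x) :
    ∃ (o : ℕ) (u a : ℤ), 0 < o ∧ zeta o = u • x ∧ x = a • zeta o := by
  obtain ⟨k, hk, hx⟩ := h
  obtain ⟨t, rfl⟩ := QuotientAddGroup.mk_surjective x
  rw [← AddCircle.coe_zsmul, AddCircle.coe_eq_zero_iff] at hx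
  obtain ⟨b, hb⟩ := hx
  simp only [zsmul_eq_mul, mul_one] at hb
  set r : ℚ := (b:ℚ) / k with hr
  have ht : t = (r.num:ℝ) / r.den := by
    rw [← Rat.cast_def, hr]
    push_cast
    have : (k:ℝ) ≠ 0 := by exact_mod_cast hk
    field_simp; linarith
  refine ⟨r.den, Int.gcdA r.num r.den, r.num, r.den_pos, ?_, ?_⟩
  · have hcop : Int.gcd r.num r.den = 1 := by
      rw [Int.gcd_def, Int.natAbs_natCast]; exact r.reduced
    have e := Int.gcd_eq_gcd_ab r.num r.den
    rw [hcop] at e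
    rw [zeta, ← AddCircle.coe_zsmul, eq_comm, ← sub_eq_zero, ← AddCircle.coe_sub,
      AddCircle.coe_eq_zero_iff]
    refine ⟨-(Int.gcdB r.num r.den), ?_⟩
    have hd : (r.den:ℝ) ≠ 0 := by exact_mod_cast r.den_nz
    have e' := congrArg (Int.cast (R := ℝ)) e
    push_cast at e'
    rw [zsmul_eq_mul, zsmul_eq_mul, ht]
    push_cast; field_simp; linarith
  · rw [zsmul_zeta, ← ht]

variable (Γ : AddSubgroup UnitAddCircle)

lemma zeta_lcm {M N : ℕ} (hM : 0 < M) (hN : 0 < N) (h1 : zeta M ∈ Γ) (h2 : zeta N ∈ Γ) :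
    zeta (Nat.lcm M N) ∈ Γ := by
  have hg := Nat.gcd_mul_lcm M N
  set g := Nat.gcd M N
  set L := Nat.lcm M N
  have hL : (L:ℝ) ≠ 0 := by exact_mod_cast Nat.lcm_ne_zero hM.ne' hN.ne'
  have e := Nat.gcd_eq_gcd_ab M N
  have : zeta L = Nat.gcdA M N • zeta N + Nat.gcdB M N • zeta M := by
    rw [zsmul_zeta, zsmul_zeta, zeta, ← AddCircle.coe_add]
    congr 1
    have e' := congrArg (Int.cast (R := ℝ)) e
    push_cast at e'
    have hg' : (g:ℝ) * L = M * N := by exact_mod_cast hg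
    have : (M:ℝ) ≠ 0 := by positivity
    have : (N:ℝ) ≠ 0 := by positivity
    field_simp
    nlinarith [e', hg']
  rw [this]
  exact Γ.add_mem (Γ.zsmul_mem h2 _) (Γ.zsmul_mem h1 _)

lemma big_zeta (hinf : {x : UnitAddCircle | x ∈ Γ ∧ IsTor x}.Infinite) (B : ℕ) :
    ∃ o, B ≤ o ∧ 0 < o ∧ zeta o ∈ Γ := by
  by_contra hcon
  push Not at hcon
  apply hinf
  refine ((Finset.range B).finite_toSet.biUnion
    (t := fun o => (fun a : ℤ => a • zeta o) '' (Ico (0:ℤ) o))
    fun o _ => (Set.finite_Ico (0:ℤ) o).image _).subset ?_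
  rintro x ⟨hx, hxt⟩
  obtain ⟨o, u, a, ho, hu, ha⟩ := tor_rep hxt
  have hoB : o < B := by
    by_contra h
    exact hcon o (not_lt.1 h) ho (hu ▸ Γ.zsmul_mem hx u)
  simp only [mem_iUnion, Finset.coe_range, mem_Iio, mem_image]
  refine ⟨o, hoB, a % o, ⟨Int.emod_nonneg _ (by omega), Int.emod_lt_of_pos _ (by omega)⟩, ?_⟩
  rw [ha]
  conv_rhs => rw [← Int.emod_add_mul_ediv a o, add_smul, mul_comm (o:ℤ), mul_smul, zeta_self ho,
    smul_zero, add_zero]

/-- Choice of the next torsion level. -/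
lemma next_level (hinf : {x : UnitAddCircle | x ∈ Γ ∧ IsTor x}.Infinite) {q : ℕ} (hq : 0 < q)
    (hζ : zeta q ∈ Γ) {τ : UnitAddCircle} (hτ : τ ∈ Γ) (hτt : IsTor τ) (B : ℕ) :
    ∃ N, B ≤ N ∧ 0 < N ∧ q ∣ N ∧ zeta N ∈ Γ ∧ ∃ a : ℤ, τ = a • zeta N := by
  obtain ⟨o, hoB, ho, hoΓ⟩ := big_zeta Γ hinf B
  obtain ⟨p, u, a, hp, hu, ha⟩ := tor_rep hτt
  have h1 : zeta (Nat.lcm q p) ∈ Γ := zeta_lcm Γ hq hp hζ (hu ▸ Γ.zsmul_mem hτ u)
  have hqp : 0 < Nat.lcm q p := Nat.lcm_pos hq hp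
  refine ⟨Nat.lcm (Nat.lcm q p) o, ?_, Nat.lcm_pos hqp ho, ?_, zeta_lcm Γ hqp ho h1 hoΓ, ?_⟩
  · exact hoB.trans (Nat.le_of_dvd (Nat.lcm_pos hqp ho) (Nat.dvd_lcm_right _ _))
  · exact (Nat.dvd_lcm_left q p).trans (Nat.dvd_lcm_left _ _)
  · obtain ⟨b, hb⟩ := zeta_dvd ((Nat.dvd_lcm_right q p).trans (Nat.dvd_lcm_left _ o))
      (Nat.lcm_pos hqp ho)
    exact ⟨a * b, by rw [mul_smul, ← hb, ← ha]⟩

/-- The combination with frequencies `c`. -/
def comb (v : Fin n → UnitAddCircle) (c : Fin n → ℤ) : UnitAddCircle := ∑ a, c a • v a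

/-- Independence modulo torsion. -/
def IndepT (v : Fin n → UnitAddCircle) : Prop := ∀ c, IsTor (comb v c) → c = 0

/-- Every element has a multiple in the span, modulo torsion. -/
def SpanT (v : Fin n → UnitAddCircle) : Prop :=
  ∀ γ ∈ Γ, ∃ m : ℕ, 0 < m ∧ ∃ c, IsTor ((m : ℤ) • γ - comb v c)

/-- Adjoining an element to an independent family, modulo torsion. -/
lemma exists_refine {k : ℕ} (v : Fin (k + 1) → UnitAddCircle) (hv : ∀ a, v a ∈ Γ) (hind : IndepT v)
    (hspan : SpanT Γ v) {q : ℕ} (hq : 0 < q) (hζ : zeta q ∈ Γ) (γ : UnitAddCircle) (hγ : γ ∈ Γ)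
    (m : ℕ) (hm : 0 < m) (c : Fin (k + 1) → ℤ) (e : ℤ)
    (hmem : (m : ℤ) • γ = comb v c + e • zeta q)
    (hmin : ∀ i : ℕ, 0 < i → i < m → ∀ d, ¬ IsTor ((i : ℤ) • γ - comb v d)) :
    ∃ (A A' : Matrix (Fin (k + 1)) (Fin (k + 1)) ℤ) (v' : Fin (k + 1) → UnitAddCircle) (b : ℤ),
      A * A' = 1 ∧ A' * A = 1 ∧ (∀ a, v' a ∈ Γ) ∧ IndepT v' ∧ SpanT Γ v' ∧
      (∀ a, a ≠ Fin.last k → v' a = comb v (A a)) ∧
      (m : ℤ) • v' (Fin.last k) = comb v (A (Fin.last k)) + b • zeta q ∧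
      ∃ (d : Fin (k + 1) → ℤ) (d0 : ℤ), γ = comb v' d + d0 • zeta q := by
  classical
  obtain ⟨A, A', hAA, hAA', a, hca⟩ := Sol.exists_adapt c
  set l := Fin.last k with hl
  set w : Fin (k + 1) → UnitAddCircle := fun i => comb v (A i) with hw
  have hwΓ : ∀ i, w i ∈ Γ := fun i => Γ.sum_mem fun j _ => Γ.zsmul_mem (hv j) _
  have hcomb : ∀ (t : ℤ) (d : Fin (k + 1) → ℤ), comb v (t • d) = t • comb v d := by
    intro t d; simp [comb, Finset.smul_sum, smul_smul]
  have hwl : (m : ℤ) • γ = a • w l + e • zeta q := by rw [hmem, hca, hcomb]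
  have hgcd : Int.gcd a m = 1 := by
    by_contra hne
    set g := Int.gcd a m
    have hg0 : 0 < g := Int.gcd_pos_of_ne_zero_right _ (by exact_mod_cast hm.ne')
    obtain ⟨a1, ha1⟩ := Int.gcd_dvd_left a m
    obtain ⟨m1, hm1⟩ := Int.gcd_dvd_right a m
    have hm1pos : 0 < m1 := by
      have : (0:ℤ) < (g:ℤ) * m1 := by rw [← hm1]; exact_mod_cast hm
      exact (mul_pos_iff_of_pos_left (by exact_mod_cast hg0)).1 this
    obtain ⟨i, rfl⟩ : ∃ i : ℕ, m1 = i := ⟨m1.toNat, (Int.toNat_of_nonneg hm1pos.le).symm⟩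
    refine hmin i (by exact_mod_cast hm1pos) ?_ (a1 • A l) (IsTor.of_zsmul (a := (g:ℤ))
      (by exact_mod_cast hg0.ne') ?_)
    · have : (i:ℤ) < (m:ℤ) := by rw [hm1]; nlinarith [show (2:ℤ) ≤ g by omega]
      exact_mod_cast this
    · rw [hcomb, smul_sub, smul_smul, smul_smul, ← hm1, ← ha1, hwl]
      rw [show comb v (A l) = w l from rfl, add_sub_cancel_left]
      exact (zeta_tor hq).zsmul e
  obtain ⟨s, t, hst⟩ : ∃ s t : ℤ, s * a + t * m = 1 := by
    refine ⟨Int.gcdA a m, Int.gcdB a m, ?_⟩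
    have := Int.gcd_eq_gcd_ab a m
    rw [hgcd] at this; push_cast at this; linarith
  set γ' := s • γ + t • w l with hγ'
  have hmγ' : (m : ℤ) • γ' = w l + (s * e) • zeta q := by
    rw [hγ', smul_add, smul_comm (m:ℤ) s γ, hwl, smul_add, smul_smul, smul_smul, smul_smul,
      add_right_comm, ← add_smul, show s * a + (m:ℤ) * t = 1 by linarith, one_smul]
  set v' := Function.update w l γ' with hv'
  -- a combination of the new family, times `m`, is a combination of the old one up to torsion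
  have hkey : ∀ d : Fin (k + 1) → ℤ,
      (m:ℤ) • comb v' d =
        comb v (Matrix.vecMul (fun i => (if i = l then 1 else (m:ℤ)) * d i) A)
          + (d l * (s * e)) • zeta q := by
    intro d
    have e1 : comb v (Matrix.vecMul (fun i => (if i = l then 1 else (m:ℤ)) * d i) A)
        = ∑ i, ((if i = l then 1 else (m:ℤ)) * d i) • w i := by
      simp only [comb, hw, Matrix.vecMul, dotProduct, Finset.smul_sum, Finset.sum_smul, smul_smul]
      rw [Finset.sum_comm]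
    rw [e1, comb, Finset.smul_sum, ← Finset.sum_erase_add _ _ (Finset.mem_univ l),
      ← Finset.sum_erase_add Finset.univ (fun i => ((if i = l then 1 else (m:ℤ)) * d i) • w i)
        (Finset.mem_univ l), add_assoc]
    congr 1
    · refine Finset.sum_congr rfl fun i hi => ?_
      have hil := Finset.ne_of_mem_erase hi
      simp [hv', hil, smul_smul]
    · simp only [if_true, one_mul, hv', Function.update_self]
      rw [smul_comm, hmγ', smul_add, smul_smul]
  refine ⟨A, A', v', s * e, hAA, hAA', ?_, ?_, ?_, ?_, ?_, ?_⟩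
  · intro i
    by_cases h : i = l
    · subst h; simp only [hv', Function.update_self]
      exact Γ.add_mem (Γ.zsmul_mem hγ _) (Γ.zsmul_mem (hwΓ _) _)
    · simp only [hv', Function.update_of_ne h]; exact hwΓ i
  · intro d hd
    have h1 := hd.zsmul (m:ℤ)
    rw [hkey] at h1
    have h2 := h1.add ((zeta_tor hq).zsmul (-(d l * (s * e))))
    rw [add_assoc, ← add_smul, add_neg_cancel, zero_smul, add_zero] at h2
    have h3 := congrArg (fun z => Matrix.vecMul z A') (hind _ h2)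
    simp only [Matrix.vecMul_vecMul, hAA, Matrix.vecMul_one, Matrix.zero_vecMul] at h3
    funext i
    have h4 := congrFun h3 i
    simp only [Pi.zero_apply, mul_eq_zero] at h4
    rcases h4 with h4 | h4
    · split_ifs at h4 <;> omega
    · exact h4
  · intro δ hδ
    obtain ⟨i, hi, d, hd⟩ := hspan δ hδ
    refine ⟨i, hi, fun j => (if j = l then (m:ℤ) else 1) * Matrix.vecMul d A' j, ?_⟩
    have e2 : comb v' (fun j => (if j = l then (m:ℤ) else 1) * Matrix.vecMul d A' j)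
        = comb v d + (Matrix.vecMul d A' l * (s * e)) • zeta q := by
      have e3 : comb v d = ∑ j, Matrix.vecMul d A' j • w j := by
        have : comb v d = comb v (Matrix.vecMul (Matrix.vecMul d A') A) := by
          rw [Matrix.vecMul_vecMul, hAA', Matrix.vecMul_one]
        rw [this]
        simp only [comb, hw, Matrix.vecMul, dotProduct, Finset.smul_sum, Finset.sum_smul, smul_smul]
        rw [Finset.sum_comm]
      rw [e3, comb, ← Finset.sum_erase_add _ _ (Finset.mem_univ l),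
        ← Finset.sum_erase_add Finset.univ (fun j => Matrix.vecMul d A' j • w j)
          (Finset.mem_univ l), add_assoc]
      congr 1
      · refine Finset.sum_congr rfl fun j hj => ?_
        simp [hv', Finset.ne_of_mem_erase hj]
      · simp only [if_true, hv', Function.update_self]
        rw [mul_comm (m:ℤ), mul_smul, hmγ', smul_add, smul_smul]
    rw [e2, ← sub_sub, sub_eq_add_neg _ ((_ : ℤ) • zeta q), ← neg_smul]
    exact hd.add ((zeta_tor hq).zsmul _)
  · intro i hi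
    simp [hv', hi, hw]
  · simp only [hv', Function.update_self]
    exact hmγ'
  · refine ⟨Pi.single l a, t * e, ?_⟩
    have e4 : comb v' (Pi.single l a) = a • γ' := by
      simp [comb, Pi.single_apply, ite_smul, hv']
    rw [e4, hγ', smul_add, smul_smul, smul_smul, add_assoc,
      show a * t = t * a from mul_comm a t, mul_smul t a, mul_smul t e, ← smul_add t, ← hwl,
      smul_smul, ← add_smul, show a * s + t * (m:ℤ) = 1 by linarith, one_smul]

end Vale.Agent.P109.Mix
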