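import Mathlib
import Vale.Agent.P109.Stair

/-! The flat torus of dimension `d` with elementary volume preserving diffeomorphisms (P109). -/

open MeasureTheory Filter Topology Set
open scoped ContDiff

namespace Vale.Agent.P109.Mix

abbrev FV (d : ℕ) := Fin d → ℝ
abbrev FT (d : ℕ) := Fin d → UnitAddCircle

variable {d : ℕ}

instance : IsProbabilityMeasure (volume : Measure (FT d)) := by
  constructor
  rw [volume_pi, Measure.pi_univ]
  simp

instance : (volume : Measure (FT d)).IsAddHaarMeasure := by
  rw [volume_pi]; infer_instance

/-- Covering map. -/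
def proj (x : FV d) : FT d := fun i => (x i : UnitAddCircle)

lemma proj_open : IsOpenQuotientMap (proj : FV d → FT d) :=
  IsOpenQuotientMap.piMap fun _ => QuotientAddGroup.isOpenQuotientMap_mk

lemma proj_surj : Function.Surjective (proj : FV d → FT d) := proj_open.surjective

lemma continuous_proj : Continuous (proj : FV d → FT d) := proj_open.continuous

lemma proj_add (a b : FV d) : proj (a + b) = proj a + proj b := by funext i; simp [proj]

lemma proj_sub (a b : FV d) : proj (a - b) = proj a - proj b := by funext i; simp [proj]

lemma proj_zero : proj (0 : FV d) = 0 := by funext i; simp [proj]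

/-- Integer vectors. -/
def IsInt (m : FV d) : Prop := ∀ i, ∃ a : ℤ, m i = a

lemma proj_eq_zero {m : FV d} : proj m = 0 ↔ IsInt m := by
  simp only [funext_iff, proj, Pi.zero_apply, IsInt, AddCircle.coe_eq_zero_iff, zsmul_one]
  exact forall_congr' fun i => exists_congr fun a => eq_comm

lemma proj_eq_iff {a b : FV d} : proj a = proj b ↔ IsInt (a - b) := by
  rw [← proj_eq_zero, proj_sub, sub_eq_zero]

lemma proj_add_int (p : FV d) {m : FV d} (hm : IsInt m) : proj (p + m) = proj p := by
  rw [proj_eq_iff]; simpa using hm

lemma int_reduce (p : FV d) : ∃ m : FV d, IsInt m ∧ p + m ∈ univ.pi fun _ => Icc (0:ℝ) 1 := by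
  refine ⟨fun i => ((-⌊p i⌋ : ℤ) : ℝ), fun i => ⟨_, rfl⟩, fun i _ => ?_⟩
  simp only [Pi.add_apply, Int.cast_neg, ← sub_eq_add_neg, Int.self_sub_floor]
  exact ⟨Int.fract_nonneg _, (Int.fract_lt_one _).le⟩

lemma compact_cube : IsCompact (univ.pi fun _ : Fin d => Icc (0:ℝ) 1) :=
  isCompact_univ_pi fun _ => isCompact_Icc

lemma int_path_const {f : ℝ → FV d} (hf : Continuous f) (h : ∀ t, IsInt (f t)) (s t : ℝ) :
    f s = f t := by
  funext i
  choose z hz using fun u => h u i
  have hzc : Continuous z := by
    apply Int.isClosedEmbedding_coe_real.isInducing.continuous_iff.2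
    rw [show (Int.cast ∘ z : ℝ → ℝ) = fun u => f u i from funext fun u => (hz u).symm]
    fun_prop
  rw [hz, hz, PreconnectedSpace.constant inferInstance hzc (x := s) (y := t)]

variable (d) in
/-- A smooth volume preserving diffeomorphism of the torus, with lifts. -/
structure Diffeo where
  F : FV d → FV d
  G : FV d → FV d
  smoothF : ContDiff ℝ ∞ F
  smoothG : ContDiff ℝ ∞ G
  FG : ∀ p, F (G p) = p
  GF : ∀ p, G (F p) = p
  e : FT d ≃ₜ FT d
  hF : ∀ p, proj (F p) = e (proj p)
  mp : MeasurePreserving e volume volume

namespace Diffeo

lemma hG (D : Diffeo d) (p : FV d) : proj (D.G p) = D.e.symm (proj p) := by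
  rw [eq_comm, Homeomorph.symm_apply_eq, ← D.hF, D.FG]

noncomputable def refl : Diffeo d where
  F := id
  G := id
  smoothF := contDiff_id
  smoothG := contDiff_id
  FG _ := rfl
  GF _ := rfl
  e := Homeomorph.refl _
  hF _ := rfl
  mp := MeasurePreserving.id _

/-- `D.comp A` applies `A` first. -/
noncomputable def comp (D A : Diffeo d) : Diffeo d where
  F := D.F ∘ A.F
  G := A.G ∘ D.G
  smoothF := D.smoothF.comp A.smoothF
  smoothG := A.smoothG.comp D.smoothG
  FG p := by simp [D.FG, A.FG]
  GF p := by simp [D.GF, A.GF]
  e := A.e.trans D.e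
  hF p := by simp [D.hF, A.hF]
  mp := D.mp.comp A.mp

noncomputable def symm (D : Diffeo d) : Diffeo d where
  F := D.G
  G := D.F
  smoothF := D.smoothG
  smoothG := D.smoothF
  FG := D.GF
  GF := D.FG
  e := D.e.symm
  hF := D.hG
  mp := MeasurePreserving.symm D.e.toMeasurableEquiv D.mp

end Diffeo

/-- An integer matrix acting on the torus. -/
def mulT (A : Matrix (Fin d) (Fin d) ℤ) (x : FT d) : FT d := fun i => ∑ j, A i j • x j

/-- The same matrix acting on the covering space. -/
def mulR (A : Matrix (Fin d) (Fin d) ℤ) (x : FV d) : FV d := fun i => ∑ j, (A i j : ℝ) * x j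

lemma proj_mulR (A : Matrix (Fin d) (Fin d) ℤ) (x : FV d) : proj (mulR A x) = mulT A (proj x) := by
  funext i
  simp only [proj, mulR, mulT]
  have : ∀ j, A i j • (x j : UnitAddCircle) = (((A i j : ℝ) * x j : ℝ) : UnitAddCircle) := by
    intro j; rw [← AddCircle.coe_zsmul, zsmul_eq_mul]
  simp only [this]
  exact map_sum (QuotientAddGroup.mk' (AddSubgroup.zmultiples (1:ℝ))) _ _

lemma mulR_mul (A B : Matrix (Fin d) (Fin d) ℤ) (x : FV d) :
    mulR A (mulR B x) = mulR (A * B) x := by
  funext i
  simp only [mulR, Matrix.mul_apply, Int.cast_sum, Int.cast_mul, Finset.mul_sum, Finset.sum_mul]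
  rw [Finset.sum_comm]
  simp [mul_assoc]

lemma mulR_one (x : FV d) : mulR (1 : Matrix (Fin d) (Fin d) ℤ) x = x := by
  funext i; simp [mulR, Matrix.one_apply, apply_ite (Int.cast (R := ℝ)), ite_mul]

lemma mulR_add (A : Matrix (Fin d) (Fin d) ℤ) (x y : FV d) :
    mulR A (x + y) = mulR A x + mulR A y := by
  funext i; simp [mulR, mul_add, Finset.sum_add_distrib]

lemma mulT_add (A : Matrix (Fin d) (Fin d) ℤ) (x y : FT d) :
    mulT A (x + y) = mulT A x + mulT A y := by
  funext i; simp [mulT, Finset.sum_add_distrib]

lemma mulT_mul (A B : Matrix (Fin d) (Fin d) ℤ) (x : FT d) :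
    mulT A (mulT B x) = mulT (A * B) x := by
  obtain ⟨y, rfl⟩ := proj_surj x
  simp only [← proj_mulR, mulR_mul]

lemma mulT_one (x : FT d) : mulT (1 : Matrix (Fin d) (Fin d) ℤ) x = x := by
  obtain ⟨y, rfl⟩ := proj_surj x
  rw [← proj_mulR, mulR_one]

@[fun_prop]
lemma continuous_mulT (A : Matrix (Fin d) (Fin d) ℤ) : Continuous (mulT A) := by
  unfold mulT; fun_prop

lemma contDiff_mulR (A : Matrix (Fin d) (Fin d) ℤ) : ContDiff ℝ ∞ (mulR A) := by
  unfold mulR; fun_prop

/-- The automorphism given by an invertible integer matrix. -/
noncomputable def aut (A A' : Matrix (Fin d) (Fin d) ℤ) (h : A * A' = 1) (h' : A' * A = 1) :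
    Diffeo d where
  F := mulR A
  G := mulR A'
  smoothF := contDiff_mulR A
  smoothG := contDiff_mulR A'
  FG p := by simp [mulR_mul, h, mulR_one]
  GF p := by simp [mulR_mul, h', mulR_one]
  e :=
    { toFun := mulT A
      invFun := mulT A'
      left_inv := fun z => by simp [mulT_mul, h', mulT_one]
      right_inv := fun z => by simp [mulT_mul, h, mulT_one]
      continuous_toFun := continuous_mulT A
      continuous_invFun := continuous_mulT A' }
  hF p := proj_mulR A p
  mp := by
    have hs : Function.Surjective (mulT A) := fun z => ⟨mulT A' z, by simp [mulT_mul, h, mulT_one]⟩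
    exact AddMonoidHom.measurePreserving (f := AddMonoidHom.mk' (mulT A) (mulT_add A))
      (continuous_mulT A) hs (by simp)

/-- Exchange two coordinates. -/
noncomputable def swap (a b : Fin d) : Diffeo d where
  F p i := p (Equiv.swap a b i)
  G p i := p (Equiv.swap a b i)
  smoothF := contDiff_pi.2 fun i => contDiff_apply ℝ ℝ _
  smoothG := contDiff_pi.2 fun i => contDiff_apply ℝ ℝ _
  FG p := by simp
  GF p := by simp
  e :=
    { toFun := fun z i => z (Equiv.swap a b i)
      invFun := fun z i => z (Equiv.swap a b i)
      left_inv := fun z => by simp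
      right_inv := fun z => by simp
      continuous_toFun := by fun_prop
      continuous_invFun := by fun_prop }
  hF p := rfl
  mp := by
    refine AddMonoidHom.measurePreserving
      (f := AddMonoidHom.mk' (fun (z : FT d) i => z (Equiv.swap a b i)) fun x y => rfl)
      (by show Continuous fun (z : FT d) i => z (Equiv.swap a b i); fun_prop)
      (fun z => ⟨fun i => z (Equiv.swap a b i), by funext i; simp⟩) (by simp)

/-- Change the sign of one coordinate. -/
noncomputable def flip (a : Fin d) : Diffeo d where
  F p := Function.update p a (-p a)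
  G p := Function.update p a (-p a)
  smoothF := contDiff_pi.2 fun i => by
    by_cases h : i = a
    · subst h; simp only [Function.update_self]; fun_prop
    · simp only [Function.update_of_ne h]; fun_prop
  smoothG := contDiff_pi.2 fun i => by
    by_cases h : i = a
    · subst h; simp only [Function.update_self]; fun_prop
    · simp only [Function.update_of_ne h]; fun_prop
  FG p := by simp
  GF p := by simp
  e :=
    { toFun := fun z => Function.update z a (-z a)
      invFun := fun z => Function.update z a (-z a)
      left_inv := fun z => by simp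
      right_inv := fun z => by simp
      continuous_toFun := continuous_id.update a (continuous_apply a).neg
      continuous_invFun := continuous_id.update a (continuous_apply a).neg }
  hF p := by
    funext i
    by_cases h : i = a
    · subst h; simp [proj]
    · simp [proj, h]
  mp := by
    refine AddMonoidHom.measurePreserving
      (f := AddMonoidHom.mk' (fun z : FT d => Function.update z a (-z a)) fun x y => ?_)
      (continuous_id.update a (continuous_apply a).neg)
      (fun z => ⟨Function.update z a (-z a), by simp⟩) (by simp)
    funext i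
    by_cases h : i = a
    · subst h; simp [add_comm]
    · simp [h]

/-- Profiles of degree one type: real functions changing by integers over a period. -/
structure Prof (d : ℕ) (a : Fin d) where
  f : ℝ → FV d
  smooth : ContDiff ℝ ∞ f
  deg : ∀ t, IsInt (f (t + 1) - f t)
  zero : ∀ t, f t a = 0

namespace Prof

variable {a : Fin d} (P : Prof d a)

/-- The induced map of the circle. -/
noncomputable def circ : UnitAddCircle → FT d :=
  Function.extend (fun t : ℝ => (t : UnitAddCircle)) (fun t => proj (P.f t)) (fun _ => 0)

lemma periodic : Function.Periodic (fun t => proj (P.f t)) 1 := fun t => by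
  simp only
  rw [proj_eq_iff]; exact P.deg t

lemma circ_coe (t : ℝ) : P.circ (t : UnitAddCircle) = proj (P.f t) := by
  refine Function.FactorsThrough.extend_apply ?_ _ t
  intro x y hxy
  have h : ((x - y : ℝ) : UnitAddCircle) = 0 := by rw [AddCircle.coe_sub, sub_eq_zero]; exact hxy
  obtain ⟨k, hk⟩ := (AddCircle.coe_eq_zero_iff 1).1 h
  rw [zsmul_one] at hk
  have := P.periodic.int_mul k y
  simp only [mul_one] at this
  rw [show x = y + k by linarith]
  exact this

lemma continuous_circ : Continuous P.circ := by
  rw [← QuotientAddGroup.isOpenQuotientMap_mk.continuous_comp_iff]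
  have : P.circ ∘ (QuotientAddGroup.mk : ℝ → UnitAddCircle) = fun t => proj (P.f t) :=
    funext P.circ_coe
  rw [this]
  exact continuous_proj.comp P.smooth.continuous

lemma circ_zero (c : UnitAddCircle) : P.circ c a = 0 := by
  obtain ⟨t, rfl⟩ := QuotientAddGroup.mk_surjective c
  rw [P.circ_coe]
  simp [proj, P.zero]

/-- Shear by a function of coordinate `a`, not changing that coordinate. -/
noncomputable def shear : Diffeo d where
  F p := p + P.f (p a)
  G p := p - P.f (p a)
  smoothF := contDiff_id.add (P.smooth.comp (contDiff_apply ℝ ℝ a))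
  smoothG := contDiff_id.sub (P.smooth.comp (contDiff_apply ℝ ℝ a))
  FG p := by simp [P.zero]
  GF p := by simp [P.zero]
  e :=
    { toFun := fun z => z + P.circ (z a)
      invFun := fun z => z - P.circ (z a)
      left_inv := fun z => by simp [P.circ_zero]
      right_inv := fun z => by simp [P.circ_zero]
      continuous_toFun := continuous_id.add (P.continuous_circ.comp (continuous_apply a))
      continuous_invFun := continuous_id.sub (P.continuous_circ.comp (continuous_apply a)) }
  hF p := by
    show proj (p + P.f (p a)) = proj p + P.circ (p a : UnitAddCircle)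
    rw [proj_add, P.circ_coe]
  mp := by
    have hc : Continuous (fun z : FT d => z + P.circ (z a)) :=
      continuous_id.add (P.continuous_circ.comp (continuous_apply a))
    refine ⟨hc.measurable, ?_⟩
    have h1 : MeasurePreserving (fun p : FT d × FT d => (p.1, p.2 + P.circ (p.1 a)))
        ((volume : Measure (FT d)).prod volume) ((volume : Measure (FT d)).prod volume) := by
      refine (MeasurePreserving.id volume).skew_product (g := fun (u : FT d) (c : FT d) => c + P.circ (u a)) ?_
        (Eventually.of_forall fun (u : FT d) => map_add_right_eq_self volume (P.circ (u a)))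
      exact (continuous_snd.add
        (P.continuous_circ.comp ((continuous_apply a).comp continuous_fst))).measurable
    -- push `(u, w)` forward by `π (u, w) = (u with coordinate a, w with the others)`
    let π : FT d × FT d → FT d := fun p => Function.update p.2 a (p.1 a)
    have hπ : MeasurePreserving π ((volume : Measure (FT d)).prod volume) volume := by
      have hπc : Continuous π := continuous_snd.update a ((continuous_apply a).comp continuous_fst)
      let φ : FT d × FT d →+ FT d := AddMonoidHom.mk' π fun p q => by
        funext i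
        by_cases h : i = a
        · subst h; simp [π]
        · simp [π, h]
      have : ((volume : Measure (FT d)).prod volume).IsAddHaarMeasure :=
        @Measure.prod.instIsAddHaarMeasure (FT d) _ _ _ (FT d) _ _ _ volume volume
          inferInstance inferInstance inferInstance inferInstance inferInstance inferInstance
      exact AddMonoidHom.measurePreserving (f := φ) hπc
        (fun z => ⟨(z, z), by simp [φ, π]⟩) (by simp [← univ_prod_univ, Measure.prod_prod])
    have e : (fun z : FT d => z + P.circ (z a)) ∘ π =
        π ∘ (fun p : FT d × FT d => (p.1, p.2 + P.circ (p.1 a))) := by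
      funext p i
      by_cases h : i = a
      · subst h; simp [π, P.circ_zero]
      · simp [π, h]
    show Measure.map (fun z : FT d => z + P.circ (z a)) volume = volume
    conv_lhs => rw [← hπ.map_eq]
    rw [Measure.map_map hc.measurable hπ.measurable, e, ← Measure.map_map hπ.measurable h1.measurable,
      h1.map_eq, hπ.map_eq]

end Prof

end Vale.Agent.P109.Mix
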