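import Mathlib
import Vale.Agent.P109.Mix.Torus
import Vale.Agent.P109.Index

/-! The two refining maps for mixed groups: torsion steps and free steps (P109). -/

open MeasureTheory Filter Topology Set
open scoped ContDiff

namespace Vale.Agent.P109.Mix

variable {n : ℕ}

/-- Dimension of the torus used for free rank `n`. -/
abbrev dim (n : ℕ) : ℕ := (n + 1) + (n + 1)

/-- First half indices. -/
def xi (i : Fin (n + 1)) : Fin (dim n) := Fin.castAdd (n + 1) i

/-- Second half indices. -/
def yi (i : Fin (n + 1)) : Fin (dim n) := Fin.natAdd (n + 1) i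

lemma xi_ne_yi (i k : Fin (n + 1)) : xi i ≠ yi k := by
  intro h
  have := congrArg Fin.val h
  simp only [xi, yi, Fin.val_castAdd, Fin.val_natAdd] at this
  omega

lemma yi_ne_xi (i k : Fin (n + 1)) : yi i ≠ xi k := (xi_ne_yi k i).symm

lemma xi_inj {i k : Fin (n + 1)} : xi i = xi k ↔ i = k := by simp [xi]

lemma yi_inj {i k : Fin (n + 1)} : yi i = yi k ↔ i = k := by simp [yi]

@[simp] lemma append_xi {α : Type} (f g : Fin (n + 1) → α) (i : Fin (n + 1)) :
    Fin.append f g (xi i) = f i := Fin.append_left f g i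

@[simp] lemma append_yi {α : Type} (f g : Fin (n + 1) → α) (i : Fin (n + 1)) :
    Fin.append f g (yi i) = g i := Fin.append_right f g i

lemma index_cases (u : Fin (dim n)) : (∃ i, u = xi i) ∨ (∃ i, u = yi i) := by
  induction u using Fin.addCases with
  | left i => exact Or.inl ⟨i, rfl⟩
  | right i => exact Or.inr ⟨i, rfl⟩

lemma vec_ext {α : Type} {f g : Fin (dim n) → α} (hx : ∀ i, f (xi i) = g (xi i))
    (hy : ∀ i, f (yi i) = g (yi i)) : f = g := by
  funext u
  rcases index_cases u with ⟨i, rfl⟩ | ⟨i, rfl⟩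
  exacts [hx i, hy i]

/-- A profile in one coordinate. -/
noncomputable def oneProf (a b : Fin (dim n)) (hab : b ≠ a) (φ : ℝ → ℝ) (hφ : ContDiff ℝ ∞ φ)
    (hdeg : ∀ t, ∃ z : ℤ, φ (t + 1) - φ t = z) : Prof (dim n) a where
  f t := Pi.single b (φ t)
  smooth := contDiff_pi.2 fun i => by
    by_cases h : i = b
    · subst h; simpa using hφ
    · simpa [Pi.single_eq_of_ne h] using contDiff_const
  deg t i := by
    by_cases h : i = b
    · subst h; simpa using hdeg t
    · exact ⟨0, by simp [Pi.single_eq_of_ne h]⟩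
  zero t := by simp [Pi.single_eq_of_ne hab.symm]

lemma oneProf_F (a b : Fin (dim n)) (hab : b ≠ a) (φ : ℝ → ℝ) (hφ : ContDiff ℝ ∞ φ)
    (hdeg : ∀ t, ∃ z : ℤ, φ (t + 1) - φ t = z) (p : FV (dim n)) :
    (oneProf a b hab φ hφ hdeg).shear.F p = Function.update p b (p b + φ (p a)) := by
  funext i
  by_cases h : i = b
  · subst h; simp [Prof.shear, oneProf]
  · simp [Prof.shear, oneProf, Pi.single_eq_of_ne h, h]

/-- Rotate the second half. -/
noncomputable def rotY : Diffeo (dim n) where
  F p := Fin.append (fun i => p (xi i)) (fun i => p (yi (i + 1)))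
  G p := Fin.append (fun i => p (xi i)) (fun i => p (yi (i - 1)))
  smoothF := contDiff_pi.2 fun u => by
    induction u using Fin.addCases with
    | left i => simp only [Fin.append_left]; fun_prop
    | right i => simp only [Fin.append_right]; fun_prop
  smoothG := contDiff_pi.2 fun u => by
    induction u using Fin.addCases with
    | left i => simp only [Fin.append_left]; fun_prop
    | right i => simp only [Fin.append_right]; fun_prop
  FG p := vec_ext (fun i => by simp) (fun i => by simp )
  GF p := vec_ext (fun i => by simp) (fun i => by simp )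
  e :=
    { toFun := fun z => Fin.append (fun i => z (xi i)) (fun i => z (yi (i + 1)))
      invFun := fun z => Fin.append (fun i => z (xi i)) (fun i => z (yi (i - 1)))
      left_inv := fun z => vec_ext (fun i => by simp) (fun i => by simp )
      right_inv := fun z => vec_ext (fun i => by simp) (fun i => by simp )
      continuous_toFun := continuous_pi fun u => by
        induction u using Fin.addCases with
        | left i => simp only [Fin.append_left]; fun_prop
        | right i => simp only [Fin.append_right]; fun_prop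
      continuous_invFun := continuous_pi fun u => by
        induction u using Fin.addCases with
        | left i => simp only [Fin.append_left]; fun_prop
        | right i => simp only [Fin.append_right]; fun_prop }
  hF p := vec_ext (fun i => by simp [proj]) (fun i => by simp [proj])
  mp := by
    refine AddMonoidHom.measurePreserving (f := AddMonoidHom.mk'
      (fun z : FT (dim n) => Fin.append (fun i => z (xi i)) (fun i => z (yi (i + 1))))
      fun z w => vec_ext (fun i => by simp) (fun i => by simp )) ?_ ?_ (by simp)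
    · exact continuous_pi fun u => by
        induction u using Fin.addCases with
        | left i => simp only [AddMonoidHom.mk'_apply, Fin.append_left]; fun_prop
        | right i => simp only [AddMonoidHom.mk'_apply, Fin.append_right]; fun_prop
    · exact fun z => ⟨Fin.append (fun i => z (xi i)) (fun i => z (yi (i - 1))),
        vec_ext (fun i => by simp) (fun i => by simp )⟩

/-- Apply an invertible matrix to the free coordinates. -/
noncomputable def autFree (A A' : Matrix (Fin n) (Fin n) ℤ) (h : A * A' = 1) (h' : A' * A = 1) :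
    Diffeo (dim n) where
  F p := Fin.append (Fin.cons (p (xi 0)) (mulR A fun a => p (xi a.succ))) (fun i => p (yi i))
  G p := Fin.append (Fin.cons (p (xi 0)) (mulR A' fun a => p (xi a.succ))) (fun i => p (yi i))
  smoothF := contDiff_pi.2 fun u => by
    induction u using Fin.addCases with
    | left i =>
      cases i using Fin.cases with
      | zero => simp only [Fin.append_left, Fin.cons_zero]; fun_prop
      | succ a => simp only [Fin.append_left, Fin.cons_succ, mulR]; fun_prop
    | right i => simp only [Fin.append_right]; fun_prop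
  smoothG := contDiff_pi.2 fun u => by
    induction u using Fin.addCases with
    | left i =>
      cases i using Fin.cases with
      | zero => simp only [Fin.append_left, Fin.cons_zero]; fun_prop
      | succ a => simp only [Fin.append_left, Fin.cons_succ, mulR]; fun_prop
    | right i => simp only [Fin.append_right]; fun_prop
  FG p := vec_ext
    (fun i => by cases i using Fin.cases <;> simp [mulR_mul, h, mulR_one])
    (fun i => by simp)
  GF p := vec_ext
    (fun i => by cases i using Fin.cases <;> simp [mulR_mul, h', mulR_one])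
    (fun i => by simp)
  e :=
    { toFun := fun z =>
        Fin.append (Fin.cons (z (xi 0)) (mulT A fun a => z (xi a.succ))) (fun i => z (yi i))
      invFun := fun z =>
        Fin.append (Fin.cons (z (xi 0)) (mulT A' fun a => z (xi a.succ))) (fun i => z (yi i))
      left_inv := fun z => vec_ext
        (fun i => by cases i using Fin.cases <;> simp [mulT_mul, h', mulT_one])
        (fun i => by simp)
      right_inv := fun z => vec_ext
        (fun i => by cases i using Fin.cases <;> simp [mulT_mul, h, mulT_one])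
        (fun i => by simp)
      continuous_toFun := continuous_pi fun u => by
        induction u using Fin.addCases with
        | left i =>
          cases i using Fin.cases with
          | zero => simp only [Fin.append_left, Fin.cons_zero]; fun_prop
          | succ a => simp only [Fin.append_left, Fin.cons_succ, mulT]; fun_prop
        | right i => simp only [Fin.append_right]; fun_prop
      continuous_invFun := continuous_pi fun u => by
        induction u using Fin.addCases with
        | left i =>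
          cases i using Fin.cases with
          | zero => simp only [Fin.append_left, Fin.cons_zero]; fun_prop
          | succ a => simp only [Fin.append_left, Fin.cons_succ, mulT]; fun_prop
        | right i => simp only [Fin.append_right]; fun_prop }
  hF p := by
    have e := proj_mulR A fun a => p (xi a.succ)
    refine vec_ext (fun i => ?_) (fun i => by simp [proj])
    cases i using Fin.cases with
    | zero => simp [proj]
    | succ a =>
      have := congrFun e a
      simp [proj]
      exact this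
  mp := by
    refine AddMonoidHom.measurePreserving (f := AddMonoidHom.mk' (fun z : FT (dim n) =>
      Fin.append (Fin.cons (z (xi 0)) (mulT A fun a => z (xi a.succ))) (fun i => z (yi i)))
      fun z w => vec_ext (fun i => ?_) (fun i => by simp)) ?_ ?_ (by simp)
    · cases i using Fin.cases with
      | zero => simp
      | succ a =>
        have := congrFun (mulT_add A (fun a => z (xi a.succ)) (fun a => w (xi a.succ))) a
        simp
        exact this
    · exact continuous_pi fun u => by
        induction u using Fin.addCases with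
        | left i =>
          cases i using Fin.cases with
          | zero => simp only [AddMonoidHom.mk'_apply, Fin.append_left, Fin.cons_zero]; fun_prop
          | succ a =>
            simp only [AddMonoidHom.mk'_apply, Fin.append_left, Fin.cons_succ, mulT]; fun_prop
        | right i => simp only [AddMonoidHom.mk'_apply, Fin.append_right]; fun_prop
    · exact fun z => ⟨Fin.append (Fin.cons (z (xi 0)) (mulT A' fun a => z (xi a.succ)))
        (fun i => z (yi i)), vec_ext
        (fun i => by cases i using Fin.cases <;> simp [mulT_mul, h, mulT_one])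
        (fun i => by simp)⟩

/-! ### The torsion step -/

/-- The torsion step from `q` to `N`. -/
noncomputable def gT (q N : ℕ) (hq : 0 < q) (hd : q ∣ N) (j : ℕ) : Diffeo (dim n) :=
  (swapD (xi 0) (yi 0)).comp
    ((oneProf (xi 0) (yi 0) (yi_ne_xi 0 0) (sigFun q N (dl j))
        (sigFun_smooth (dl_pos j) (dl_lt_one j))
        (fun t => ⟨((N / q : ℕ) : ℤ), by rw [sigFun_per hq hd]; ring⟩)).shear.comp
      ((flip (yi 0)).comp
        ((oneProf (yi 0) (xi 0) (xi_ne_yi 0 0) (tauFun q N (dl j))
            (tauFun_smooth hq (dl_pos j) (dl_lt_one j))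
            (fun t => ⟨0, by rw [tauFun_per]; simp⟩)).shear.comp rotY)))
where
  swapD (a b : Fin (dim n)) : Diffeo (dim n) := swap a b

lemma gT_F_x0 (q N : ℕ) (hq : 0 < q) (hd : q ∣ N) (j : ℕ) (p : FV (dim n)) :
    (gT q N hq hd j).F p (xi 0) =
      sigFun q N (dl j) (p (xi 0) + tauFun q N (dl j) (p (yi 1))) - p (yi 1) := by
  have h1 := xi_ne_yi (0 : Fin (n + 1)) (0 : Fin (n + 1))
  simp [gT, gT.swapD, Diffeo.comp, swap, flip, oneProf_F, rotY, h1, h1.symm]
  ring

lemma gT_F_y0 (q N : ℕ) (hq : 0 < q) (hd : q ∣ N) (j : ℕ) (p : FV (dim n)) :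
    (gT q N hq hd j).F p (yi 0) = p (xi 0) + tauFun q N (dl j) (p (yi 1)) := by
  have h1 := xi_ne_yi (0 : Fin (n + 1)) (0 : Fin (n + 1))
  simp [gT, gT.swapD, Diffeo.comp, swap, flip, oneProf_F, rotY, h1, h1.symm]

lemma gT_F_free (q N : ℕ) (hq : 0 < q) (hd : q ∣ N) (j : ℕ) (p : FV (dim n)) (a : Fin n) :
    (gT q N hq hd j).F p (xi a.succ) = p (xi a.succ) := by
  have h1 : xi a.succ ≠ xi (0 : Fin (n + 1)) := fun h => Fin.succ_ne_zero a (xi_inj.1 h)
  have h2 := xi_ne_yi a.succ (0 : Fin (n + 1))
  simp [gT, gT.swapD, Diffeo.comp, swap, flip, oneProf_F, rotY, Equiv.swap_apply_of_ne_of_ne,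
    h1, h2]

lemma gT_F_slot (q N : ℕ) (hq : 0 < q) (hd : q ∣ N) (j : ℕ) (p : FV (dim n)) (i : Fin (n + 1))
    (hi : i ≠ 0) : (gT q N hq hd j).F p (yi i) = p (yi (i + 1)) := by
  have h1 : yi i ≠ xi (0 : Fin (n + 1)) := yi_ne_xi i 0
  have h2 : yi i ≠ yi (0 : Fin (n + 1)) := fun h => hi (yi_inj.1 h)
  simp [gT, gT.swapD, Diffeo.comp, swap, flip, oneProf_F, rotY, Equiv.swap_apply_of_ne_of_ne,
    h1, h2]

/-- Exactness of the torsion step. -/
lemma gT_step (q N : ℕ) (hq : 0 < q) (hd : q ∣ N) (hN : 0 < N) (j : ℕ) (p r : FV (dim n))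
    (hr0 : r (xi 0) = 1 / (N:ℝ)) (hry : ∀ i, r (yi i) = 0) (r' : FV (dim n))
    (h0 : r' (xi 0) = 1 / (q:ℝ)) (hf : ∀ a : Fin n, r' (xi a.succ) = r (xi a.succ))
    (hy0 : r' (yi 0) = 1 / (N:ℝ)) (hys : ∀ i, i ≠ 0 → r' (yi i) = 0) :
    (gT q N hq hd j).F (p + r) = (gT q N hq hd j).F p + r' := by
  have hN' : (N:ℝ) ≠ 0 := by positivity
  refine vec_ext (fun i => ?_) (fun i => ?_)
  · cases i using Fin.cases with
    | zero =>
      simp only [Pi.add_apply, gT_F_x0, hr0, hry, add_zero, h0]
      simp only [sigFun]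
      have : (N:ℝ) * (p (xi 0) + 1 / (N:ℝ) + tauFun q N (dl j) (p (yi 1)))
          = (N:ℝ) * (p (xi 0) + tauFun q N (dl j) (p (yi 1))) + ((1:ℤ):ℝ) := by
        push_cast; field_simp; ring
      rw [this, stair_add_int]
      push_cast; ring
    | succ a => simp [gT_F_free, hf]
  · by_cases hi : i = 0
    · subst hi
      simp only [Pi.add_apply, gT_F_y0, hr0, hry, add_zero, hy0]; ring
    · simp [gT_F_slot _ _ _ _ _ _ _ hi, hry, hys i hi]

/-- Good points of a torsion step, in the coordinates of the upper level. -/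
def BadT (q N : ℕ) (δ : ℝ) (p : FV (dim n)) : Prop :=
  1 - δ < Int.fract ((N:ℝ) * p (xi 0)) ∨ 1 - δ < Int.fract ((q:ℝ) * p (yi 1))
    ∨ Int.fract ((q:ℝ) * p (yi 1)) < δ

lemma gT_good (q N : ℕ) (hq : 0 < q) (hd : q ∣ N) (hN : 0 < N) (j : ℕ) (p : FV (dim n))
    (h : ¬ BadT q N (dl j) p) :
    (gT q N hq hd j).F p (xi 0) =
        ((⌊(N:ℝ) * p (xi 0)⌋ + (⌊(q:ℝ) * p (yi 1)⌋ - (q:ℤ) * ⌊p (yi 1)⌋) + 1 : ℤ) : ℝ) / q - p (yi 1)
    ∧ (gT q N hq hd j).F p (yi 0) =
        p (xi 0) + ((⌊(q:ℝ) * p (yi 1)⌋ - (q:ℤ) * ⌊p (yi 1)⌋ : ℤ) : ℝ) / N := by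
  simp only [BadT, not_or, not_lt] at h
  have e := gmap_good q N hq hd hN j h.1 h.2.1
  rw [gmap_F] at e
  exact ⟨(gT_F_x0 q N hq hd j p).trans (congrArg Prod.fst e),
    (gT_F_y0 q N hq hd j p).trans (congrArg Prod.snd e)⟩

/-! ### The free step -/

/-- The data of a free step. -/
structure FreeData (n : ℕ) where
  A : Matrix (Fin n) (Fin n) ℤ
  A' : Matrix (Fin n) (Fin n) ℤ
  hA : A * A' = 1
  hA' : A' * A = 1
  l : Fin n
  m : ℕ
  hm : 0 < m
  b : ℤ
  C : ℤ
  i0 : ℤ

namespace FreeData

variable (S : FreeData n) (q : ℕ) (hq : 0 < q) (j : ℕ)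

include hq in
lemma stair_deg (c : ℤ) (t : ℝ) :
    ∃ z : ℤ, (c:ℝ) * stair (dl j) ((q:ℝ) * (t + 1)) - (c:ℝ) * stair (dl j) ((q:ℝ) * t) = z := by
  have _ := hq
  refine ⟨c * q, ?_⟩
  rw [show (q:ℝ) * (t + 1) = (q:ℝ) * t + ((q:ℤ):ℝ) by push_cast; ring, stair_add_int]
  push_cast; ring

lemma ne_l : xi (n := n) S.l.succ ≠ xi 0 := fun h => Fin.succ_ne_zero _ (xi_inj.1 h)

/-- The free step. -/
noncomputable def g : Diffeo (dim n) :=
  (autFree S.A' S.A S.hA' S.hA).comp
    ((oneProf (xi 0) (xi S.l.succ) S.ne_l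
        (fun t => -((S.b:ℝ) * (stair (dl j) ((q:ℝ) * t) / q)))
        ((contDiff_const.mul (((stair_smooth (dl_pos j) (dl_lt_one j)).comp
          (contDiff_const.mul contDiff_id)).div_const _)).neg)
        (fun t => ⟨-S.b, by
          rw [show (q:ℝ) * (t + 1) = (q:ℝ) * t + ((q:ℤ):ℝ) by push_cast; ring, stair_add_int]
          have : (q:ℝ) ≠ 0 := by positivity
          push_cast; field_simp; ring⟩)).shear.comp
      ((oneProf (xi 0) (yi 0) (yi_ne_xi 0 0)
          (fun t => ((-S.i0 : ℤ):ℝ) * stair (dl j) ((q:ℝ) * t))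
          (contDiff_const.mul ((stair_smooth (dl_pos j) (dl_lt_one j)).comp
            (contDiff_const.mul contDiff_id)))
          (stair_deg q hq j (-S.i0))).shear.comp
        ((oneProf (xi S.l.succ) (yi 0) (yi_ne_xi 0 _) (fun t => (S.C:ℝ) * t)
            (contDiff_const.mul contDiff_id) (fun t => ⟨S.C, by ring⟩)).shear.comp
          ((swap (xi S.l.succ) (yi 0)).comp
            ((oneProf (xi S.l.succ) (yi 0) (yi_ne_xi 0 _) (fun t => (S.m:ℝ) * t)
                (contDiff_const.mul contDiff_id) (fun t => ⟨S.m, by push_cast; ring⟩)).shear.comp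
              ((flip (yi 0)).comp
                (oneProf (yi 0) (xi S.l.succ) (xi_ne_yi _ 0) (fun t => (t - stair (dl j) t) / S.m)
                    ((contDiff_id.sub (stair_smooth (dl_pos j) (dl_lt_one j))).div_const _)
                    (fun t => ⟨0, by
                      rw [show t + 1 = t + ((1:ℤ):ℝ) by simp, stair_add_int]
                      push_cast; ring⟩)).shear))))))

/-- The coordinate `x_l` after the first shear. -/
noncomputable def x1 (p : FV (dim n)) : ℝ :=
  p (xi S.l.succ) + (p (yi 0) - stair (dl j) (p (yi 0))) / S.m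

lemma g_x0 (p : FV (dim n)) : (S.g q hq j).F p (xi 0) = p (xi 0) := by
  have h1 := S.ne_l.symm
  have h2 := xi_ne_yi (0 : Fin (n + 1)) (0 : Fin (n + 1))
  simp [g, Diffeo.comp, autFree, oneProf_F, swap, flip, h1, h2, Equiv.swap_apply_of_ne_of_ne]

/-- The free coordinates before applying the matrix. -/
noncomputable def bar (p : FV (dim n)) : Fin n → ℝ := fun a =>
  if a = S.l then (S.m:ℝ) * S.x1 j p - p (yi 0) -
    (S.b:ℝ) * (stair (dl j) ((q:ℝ) * p (xi 0)) / q) else p (xi a.succ)

lemma g_free (p : FV (dim n)) (a : Fin n) :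
    (S.g q hq j).F p (xi a.succ) = mulR S.A' (S.bar q j p) a := by
  have h1 := S.ne_l
  have h2 := xi_ne_yi S.l.succ (0 : Fin (n + 1))
  have h3 := yi_ne_xi (0 : Fin (n + 1)) (0 : Fin (n + 1))
  have h4 := xi_ne_yi (0 : Fin (n + 1)) (0 : Fin (n + 1))
  simp only [g, Diffeo.comp, autFree, Function.comp_apply]
  show Fin.append _ _ (Fin.castAdd (n + 1) a.succ) = _
  rw [Fin.append_left, Fin.cons_succ]
  congr 1
  funext b
  have hb0 : xi b.succ ≠ xi (0 : Fin (n + 1)) := fun h => Fin.succ_ne_zero b (xi_inj.1 h)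
  have hby := xi_ne_yi b.succ (0 : Fin (n + 1))
  by_cases hb : b = S.l
  · subst hb
    simp [oneProf_F, swap, flip, bar, x1, h1, h1.symm, h2, h2.symm, h3, h4,
      Equiv.swap_apply_of_ne_of_ne]
    ring
  · have hbl : xi b.succ ≠ xi S.l.succ := fun h => hb (Fin.succ_injective _ (xi_inj.1 h))
    simp [oneProf_F, swap, flip, bar, hb, hbl, hby, Equiv.swap_apply_of_ne_of_ne]

lemma g_y0 (p : FV (dim n)) :
    (S.g q hq j).F p (yi 0) = S.x1 j p + (S.C:ℝ) * ((S.m:ℝ) * S.x1 j p - p (yi 0)) -
      (S.i0:ℝ) * stair (dl j) ((q:ℝ) * p (xi 0)) := by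
  have h1 := S.ne_l
  have h2 := xi_ne_yi S.l.succ (0 : Fin (n + 1))
  have h3 := yi_ne_xi (0 : Fin (n + 1)) (0 : Fin (n + 1))
  have h4 := xi_ne_yi (0 : Fin (n + 1)) (0 : Fin (n + 1))
  simp only [g, Diffeo.comp, autFree, Function.comp_apply]
  show Fin.append _ _ (Fin.natAdd (n + 1) 0) = _
  rw [Fin.append_right]
  simp [oneProf_F, swap, flip, x1, h1, h1.symm, h2, h2.symm, h3, h4, Equiv.swap_apply_of_ne_of_ne]
  ring

lemma g_slot (p : FV (dim n)) (i : Fin (n + 1)) (hi : i ≠ 0) :
    (S.g q hq j).F p (yi i) = p (yi i) := by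
  have h1 : yi i ≠ yi (0 : Fin (n + 1)) := fun h => hi (yi_inj.1 h)
  have h2 := yi_ne_xi i S.l.succ
  simp only [g, Diffeo.comp, autFree, Function.comp_apply]
  show Fin.append _ _ (Fin.natAdd (n + 1) i) = _
  rw [Fin.append_right]
  simp [oneProf_F, swap, flip, h1, h2, Equiv.swap_apply_of_ne_of_ne]

/-- Exactness of the free step. -/
lemma g_step (p r r' : FV (dim n)) (hr0 : r (xi 0) = 1 / (q:ℝ)) (hry : ∀ i, r (yi i) = 0)
    (h0 : r' (xi 0) = 1 / (q:ℝ))
    (hf : ∀ a : Fin n, r' (xi a.succ) = mulR S.A'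
      (fun b => if b = S.l then (S.m:ℝ) * r (xi S.l.succ) - (S.b:ℝ) / q else r (xi b.succ)) a)
    (hy0 : r' (yi 0) = r (xi S.l.succ) * (1 + (S.C:ℝ) * S.m) - S.i0)
    (hys : ∀ i, i ≠ 0 → r' (yi i) = 0) :
    (S.g q hq j).F (p + r) = (S.g q hq j).F p + r' := by
  have hq' : (q:ℝ) ≠ 0 := by positivity
  have hst : stair (dl j) ((q:ℝ) * (p (xi 0) + 1 / (q:ℝ))) =
      stair (dl j) ((q:ℝ) * p (xi 0)) + 1 := by
    rw [show (q:ℝ) * (p (xi 0) + 1 / (q:ℝ)) = (q:ℝ) * p (xi 0) + ((1:ℤ):ℝ) by
      push_cast; field_simp, stair_add_int]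
    simp
  have hx1 : S.x1 j (p + r) = S.x1 j p + r (xi S.l.succ) := by
    simp only [x1, Pi.add_apply, hry, add_zero]; ring
  refine vec_ext (fun i => ?_) (fun i => ?_)
  · cases i using Fin.cases with
    | zero => simp [g_x0, h0, hr0]
    | succ a =>
      rw [Pi.add_apply, g_free, g_free, hf]
      have e : S.bar q j (p + r) = S.bar q j p +
          fun b => if b = S.l then (S.m:ℝ) * r (xi S.l.succ) - (S.b:ℝ) / q else r (xi b.succ) := by
        funext b
        by_cases hb : b = S.l
        · subst hb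
          simp only [bar, Pi.add_apply, if_true, hx1, hry, hr0, hst, add_zero]
          field_simp; ring
        · simp [bar, hb]
      rw [e, mulR_add]; rfl
  · by_cases hi : i = 0
    · subst hi
      rw [Pi.add_apply, g_y0, g_y0, hx1, hy0]
      simp only [Pi.add_apply, hry, hr0, hst, add_zero]; ring
    · simp [g_slot _ _ _ _ _ _ hi, hry, hys i hi]

/-- Good points of a free step. -/
def Bad (q : ℕ) (δ : ℝ) (p : FV (dim n)) : Prop :=
  1 - δ < Int.fract (p (yi 0)) ∨ Int.fract (p (yi 0)) < δ ∨ 1 - δ < Int.fract ((q:ℝ) * p (xi 0))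

/-- Values at a good point. -/
lemma g_good (p : FV (dim n)) (h : ¬ Bad q (dl j) p) :
    (∀ a : Fin n, ((S.g q hq j).F p (xi a.succ) : UnitAddCircle) =
      mulT S.A' (fun b => if b = S.l then
        (S.m:ℤ) • (p (xi S.l.succ) : UnitAddCircle) -
          S.b • (((⌊(q:ℝ) * p (xi 0)⌋ : ℝ) / q : ℝ) : UnitAddCircle)
        else (p (xi b.succ) : UnitAddCircle)) a) ∧
    ((S.g q hq j).F p (yi 0) : UnitAddCircle) =
      ((p (xi S.l.succ) + Int.fract (p (yi 0)) / S.m + (S.C:ℝ) * ((S.m:ℝ) * p (xi S.l.succ)) : ℝ) :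
        UnitAddCircle) := by
  simp only [Bad, not_or, not_lt] at h
  obtain ⟨h1, -, h3⟩ := h
  have hm : (S.m:ℝ) ≠ 0 := by have := S.hm; positivity
  have hx1 : S.x1 j p = p (xi S.l.succ) + Int.fract (p (yi 0)) / S.m := by
    rw [x1, stair_flat (dl_pos j) h1, Int.self_sub_floor]
  have hmx : (S.m:ℝ) * S.x1 j p - p (yi 0) = (S.m:ℝ) * p (xi S.l.succ) - ⌊p (yi 0)⌋ := by
    rw [hx1, ← Int.self_sub_floor]; field_simp; ring
  have hzero : ∀ z : ℤ, ((z:ℝ) : UnitAddCircle) = 0 := fun z =>
    (AddCircle.coe_eq_zero_iff (1:ℝ)).2 ⟨z, by simp⟩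
  constructor
  · intro a
    rw [g_free]
    have e := congrFun (proj_mulR S.A' (S.bar q j p)) a
    refine (show ((mulR S.A' (S.bar q j p) a : ℝ) : UnitAddCircle) = _ from e).trans ?_
    congr 1
    funext b
    by_cases hb : b = S.l
    · subst hb
      simp only [proj, bar, if_true, hmx, stair_flat (dl_pos j) h3]
      rw [AddCircle.coe_sub, AddCircle.coe_sub, hzero, sub_zero, ← AddCircle.coe_zsmul,
        ← AddCircle.coe_zsmul, zsmul_eq_mul, zsmul_eq_mul]
      push_cast; rfl
    · simp [proj, bar, hb]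
  · rw [g_y0, hmx, hx1, stair_flat (dl_pos j) h3]
    rw [show p (xi S.l.succ) + Int.fract (p (yi 0)) / S.m +
        (S.C:ℝ) * ((S.m:ℝ) * p (xi S.l.succ) - ⌊p (yi 0)⌋) - (S.i0:ℝ) * ⌊(q:ℝ) * p (xi 0)⌋
      = p (xi S.l.succ) + Int.fract (p (yi 0)) / S.m + (S.C:ℝ) * ((S.m:ℝ) * p (xi S.l.succ))
        + ((-(S.C * ⌊p (yi 0)⌋) - S.i0 * ⌊(q:ℝ) * p (xi 0)⌋ : ℤ) : ℝ) by push_cast; ring]
    rw [AddCircle.coe_add, hzero, add_zero]

end FreeData

end Vale.Agent.P109.Mix
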