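import Mathlib
import Vale.Agent.P109.Mix.Conj

/-! Limits of torus diffeomorphisms given by fast converging lifts (P109). -/

open MeasureTheory Filter Topology Set
open scoped ContDiff

namespace Vale.Agent.P109.Mix

variable {d : ℕ}

/-- A sequence of smooth maps whose differences decay geometrically in every `C^k` norm. -/
structure FastSeq (d : ℕ) where
  c : ℕ → FV d → FV d
  smooth : ∀ j, ContDiff ℝ ∞ (c j)
  small : ∀ j k, k ≤ j → ∀ p,
    ‖iteratedFDeriv ℝ k (fun x => c (j + 1) x - c j x) p‖ ≤ (1/2 : ℝ) ^ j
  bdd : ∀ j k, ∃ B, 0 ≤ B ∧ ∀ p, ‖iteratedFDeriv ℝ k (fun x => c (j + 1) x - c j x) p‖ ≤ B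
  equi : ∀ j p m, IsInt m → c j (p + m) = c j p + m

namespace FastSeq

variable (s : FastSeq d)

noncomputable def lim (p : FV d) : FV d := s.c 0 p + ∑' j, (s.c (j + 1) p - s.c j p)

lemma norm_diff_le (j : ℕ) (p : FV d) : ‖s.c (j + 1) p - s.c j p‖ ≤ (1/2 : ℝ) ^ j := by
  simpa [norm_iteratedFDeriv_zero] using s.small j 0 (Nat.zero_le _) p

lemma lim_smooth : ContDiff ℝ ∞ s.lim := by
  choose B hB0 hB using fun j k => s.bdd j k
  refine (s.smooth 0).add (contDiff_tsum (v := fun k j =>
    if k ≤ j then (1/2 : ℝ) ^ j else B j k) (fun j => (s.smooth (j + 1)).sub (s.smooth j)) ?_ ?_)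
  · intro k _
    refine (summable_nat_add_iff k).1 ?_
    refine Summable.congr ((summable_geometric_two).comp_injective (add_left_injective k)) ?_
    intro j; simp
  · intro k j p _
    split_ifs with h
    · exact s.small j k h p
    · exact hB j k p

lemma tendsto_lim (p : FV d) : Tendsto (fun j => s.c j p) atTop (𝓝 (s.lim p)) := by
  have hs : Summable fun j => s.c (j + 1) p - s.c j p :=
    Summable.of_norm_bounded summable_geometric_two fun j => s.norm_diff_le j p
  have := (hs.hasSum.tendsto_sum_nat).const_add (s.c 0 p)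
  refine this.congr fun n => ?_
  rw [Finset.sum_range_sub (fun j => s.c j p)]; abel

lemma dist_lim (j : ℕ) (p : FV d) : dist (s.c j p) (s.lim p) ≤ 2 * (1/2 : ℝ) ^ j := by
  have := dist_le_of_le_geometric_of_tendsto (1/2 : ℝ) 1 (by norm_num)
    (fun n => by rw [dist_comm, dist_eq_norm, one_mul]; exact s.norm_diff_le n p)
    (s.tendsto_lim p) j
  refine this.trans (le_of_eq ?_)
  ring

lemma lim_equi (p m : FV d) (hm : IsInt m) : s.lim (p + m) = s.lim p + m := by
  refine tendsto_nhds_unique (s.tendsto_lim (p + m)) ?_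
  exact ((s.tendsto_lim p).add_const m).congr fun j => (s.equi j p m hm).symm

lemma lim_inv (t : FastSeq d) (h : ∀ j p, s.c j (t.c j p) = p) (p : FV d) :
    s.lim (t.lim p) = p := by
  have h1 : Tendsto (fun j => s.lim (t.c j p)) atTop (𝓝 (s.lim (t.lim p))) :=
    (s.lim_smooth.continuous.tendsto _).comp (t.tendsto_lim p)
  have h2 : Tendsto (fun j => s.lim (t.c j p)) atTop (𝓝 p) := by
    rw [tendsto_iff_dist_tendsto_zero]
    refine squeeze_zero (fun _ => dist_nonneg) (fun j => ?_)
      (show Tendsto (fun j : ℕ => 2 * (1/2 : ℝ) ^ j) atTop (𝓝 0) by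
        simpa using (tendsto_pow_atTop_nhds_zero_of_lt_one (by norm_num : (0:ℝ) ≤ 1/2)
          (by norm_num)).const_mul 2)
    have := s.dist_lim j (t.c j p)
    rw [h, dist_comm] at this
    exact this
  exact tendsto_nhds_unique h1 h2

/-- The induced map of the torus. -/
noncomputable def onTorus : FT d → FT d := Function.extend proj (fun p => proj (s.lim p)) id

lemma onTorus_proj (p : FV d) : s.onTorus (proj p) = proj (s.lim p) := by
  have hf : Function.FactorsThrough (fun p => proj (s.lim p)) proj := by
    intro a b hab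
    have hm := proj_eq_iff.1 hab
    have h2 : proj (s.lim (b + (a - b))) = proj (s.lim b) := by
      rw [s.lim_equi b _ hm, proj_add_int _ hm]
    rw [add_sub_cancel] at h2
    exact h2
  exact hf.extend_apply _ p

lemma continuous_onTorus : Continuous s.onTorus := by
  rw [← proj_open.continuous_comp_iff]
  have : s.onTorus ∘ proj = fun p => proj (s.lim p) := funext s.onTorus_proj
  rw [this]
  exact continuous_proj.comp s.lim_smooth.continuous

/-- The limit homeomorphism. -/
noncomputable def homeo (t : FastSeq d) (h : ∀ j p, s.c j (t.c j p) = p)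
    (h' : ∀ j p, t.c j (s.c j p) = p) : FT d ≃ₜ FT d where
  toFun := s.onTorus
  invFun := t.onTorus
  left_inv z := by
    obtain ⟨p, rfl⟩ := proj_surj z
    rw [onTorus_proj, onTorus_proj, lim_inv t s h']
  right_inv z := by
    obtain ⟨p, rfl⟩ := proj_surj z
    rw [onTorus_proj, onTorus_proj, lim_inv s t h]
  continuous_toFun := s.continuous_onTorus
  continuous_invFun := t.continuous_onTorus

lemma tendsto_onTorus (e : ℕ → FT d → FT d) (he : ∀ j p, e j (proj p) = proj (s.c j p)) (z : FT d) :
    Tendsto (fun j => e j z) atTop (𝓝 (s.onTorus z)) := by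
  obtain ⟨p, rfl⟩ := proj_surj z
  simp only [he, s.onTorus_proj]
  exact (continuous_proj.tendsto _).comp (s.tendsto_lim p)

end FastSeq

/-- A pointwise limit of measure preserving continuous maps is measure preserving. -/
lemma mp_of_tendsto {e : ℕ → FT d → FT d} {f : FT d → FT d} (he : ∀ j, MeasurePreserving (e j) volume volume)
    (hf : Continuous f) (hlim : ∀ z, Tendsto (fun j => e j z) atTop (𝓝 (f z))) :
    MeasurePreserving f volume volume := by
  refine ⟨hf.measurable, ext_of_forall_integral_eq_of_IsFiniteMeasure fun g => ?_⟩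
  rw [integral_map hf.measurable.aemeasurable g.continuous.aestronglyMeasurable]
  have h1 : Tendsto (fun j => ∫ z, g (e j z) ∂(volume : Measure (FT d))) atTop
      (𝓝 (∫ z, g (f z) ∂(volume : Measure (FT d)))) := by
    refine tendsto_integral_of_dominated_convergence (fun _ => ‖g‖)
      (fun j => (g.continuous.measurable.comp (he j).measurable).aestronglyMeasurable)
      (integrable_const _) (fun j => Eventually.of_forall fun z => g.norm_coe_le_norm _)
      (Eventually.of_forall fun z => (g.continuous.tendsto _).comp (hlim z))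
  refine tendsto_nhds_unique h1 ?_
  refine tendsto_const_nhds.congr fun j => ?_
  conv_lhs => rw [← (he j).map_eq]
  rw [integral_map (he j).measurable.aemeasurable g.continuous.aestronglyMeasurable]

end Vale.Agent.P109.Mix
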