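import Mathlib
import Vale.Agent.P109.Mix.Gadget
import Vale.Agent.P109.Mix.Algebra

/-! Strip-snapped coordinates, exceptional sets and distance estimates of the two steps (P109). -/

open MeasureTheory Filter Topology Set
open scoped ContDiff ENNReal

namespace Vale.Agent.P109.Mix

variable {n : ℕ}

/-- Representative of a circle point in `[0, 1)`. -/
noncomputable def rp (c : UnitAddCircle) : ℝ := (AddCircle.measurableEquivIco 1 0 c : ℝ)

lemma rp_mem (c : UnitAddCircle) : rp c ∈ Ico (0:ℝ) 1 := by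
  simpa [rp] using (AddCircle.measurableEquivIco 1 0 c).2

lemma coe_rp (c : UnitAddCircle) : (rp c : UnitAddCircle) = c :=
  (AddCircle.measurableEquivIco (1:ℝ) 0).left_inv c

@[fun_prop]
lemma measurable_rp : Measurable rp :=
  measurable_subtype_coe.comp (AddCircle.measurableEquivIco 1 0).measurable

lemma rp_coe (t : ℝ) : ∃ a : ℤ, rp (t : UnitAddCircle) = t + a := by
  have h : ((rp (t : UnitAddCircle) - t : ℝ) : UnitAddCircle) = 0 := by
    rw [AddCircle.coe_sub, coe_rp, sub_self]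
  obtain ⟨a, ha⟩ := (AddCircle.coe_eq_zero_iff (1:ℝ)).1 h
  rw [zsmul_one] at ha
  exact ⟨a, by linarith⟩

/-- Representatives of all coordinates. -/
noncomputable def lift {d : ℕ} (z : FT d) : FV d := fun i => rp (z i)

lemma proj_lift {d : ℕ} (z : FT d) : proj (lift z) = z := funext fun i => coe_rp (z i)

/-- The strip point of width `1 / q` containing `c`. -/
noncomputable def strip (q : ℕ) (c : UnitAddCircle) : UnitAddCircle :=
  ⌊(q:ℝ) * rp c⌋ • zeta q

lemma strip_coe {q : ℕ} (hq : 0 < q) (t : ℝ) :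
    strip q (t : UnitAddCircle) = ⌊(q:ℝ) * t⌋ • zeta q := by
  obtain ⟨a, ha⟩ := rp_coe t
  rw [strip, ha, mul_add, show (q:ℝ) * (a:ℝ) = ((q * a : ℤ) : ℝ) by push_cast; ring,
    Int.floor_add_intCast, add_smul, mul_comm (q:ℤ) a, mul_smul, zeta_self hq, smul_zero, add_zero]

lemma strip_add {q : ℕ} (hq : 0 < q) (c : UnitAddCircle) :
    strip q (c + zeta q) = strip q c + zeta q := by
  conv_lhs => rw [← coe_rp c, zeta, ← AddCircle.coe_add, strip_coe hq]
  have hq' : (q:ℝ) ≠ 0 := by positivity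
  rw [mul_add, show (q:ℝ) * (1 / (q:ℝ)) = 1 by field_simp, Int.floor_add_one, add_smul, one_smul]
  rfl

/-- The snapped coordinates. -/
noncomputable def snap (q : ℕ) (z : FT (dim n)) : Sol.Tr n :=
  Fin.cons (strip q (z (xi 0))) (fun a => z (xi a.succ))

/-- The frequency vector. -/
noncomputable def wvec (q : ℕ) (v : Fin n → UnitAddCircle) : Sol.Tr n := Fin.cons (zeta q) v

/-- The lift of the translation vector. -/
noncomputable def rhat (q : ℕ) (rf : Fin n → ℝ) : FV (dim n) :=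
  Fin.append (Fin.cons (1 / (q:ℝ)) rf) 0

lemma rhat_x0 (q : ℕ) (rf : Fin n → ℝ) : rhat q rf (xi 0) = 1 / (q:ℝ) := by simp [rhat]

lemma rhat_free (q : ℕ) (rf : Fin n → ℝ) (a : Fin n) : rhat q rf (xi a.succ) = rf a := by
  simp [rhat]

lemma rhat_y (q : ℕ) (rf : Fin n → ℝ) (i : Fin (n + 1)) : rhat q rf (yi i) = 0 := by simp [rhat]

lemma snap_add {q : ℕ} (hq : 0 < q) (rf : Fin n → ℝ) (z : FT (dim n)) :
    snap q (z + proj (rhat q rf)) = snap q z + wvec q (proj rf) := by
  funext i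
  cases i using Fin.cases with
  | zero =>
    simp only [snap, wvec, Fin.cons_zero, Pi.add_apply, proj, rhat_x0]
    exact strip_add hq _
  | succ a => simp [snap, wvec, proj, rhat_free]

lemma psi_cons (c0 : UnitAddCircle) (v : Fin n → UnitAddCircle) (c : Fin (n + 1) → ℤ) :
    Sol.psi (Fin.cons c0 v) c = c 0 • c0 + comb v (fun a => c a.succ) := by
  simp [Sol.psi, comb, Fin.sum_univ_succ]

/-- Characters with the same frequency take the same value at snapped points. -/
lemma snap_char {q : ℕ} (hq : 0 < q) {v : Fin n → UnitAddCircle} (hv : IndepT v)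
    {c c' : Fin (n + 1) → ℤ} (h : Sol.psi (wvec q v) c = Sol.psi (wvec q v) c') (z : FT (dim n)) :
    Sol.psi (snap q z) c = Sol.psi (snap q z) c' := by
  rw [← sub_eq_zero, ← Sol.psi_sub] at h ⊢
  set d := c - c'
  rw [wvec, psi_cons] at h
  have hd : (fun a : Fin n => d a.succ) = 0 := hv _ (by
    rw [eq_neg_of_add_eq_zero_right h, ← neg_smul]; exact (zeta_tor hq).zsmul _)
  rw [hd, show comb v 0 = 0 by simp [comb], add_zero] at h
  rw [snap, psi_cons, hd, show ∀ x : Fin n → UnitAddCircle, comb x 0 = 0 by simp [comb], add_zero,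
    strip, smul_smul, mul_comm, mul_smul, h, smul_zero]

/-! ### Small sets -/

lemma coord_small {d : ℕ} (i : Fin d) (M : ℕ) (hM : 0 < M) (S : Set ℝ) (hS : MeasurableSet S)
    (a b : ℝ) (ha : 0 ≤ a) (hsub : S ⊆ Icc a b) :
    (volume : Measure (FT d)) {z | Int.fract ((M:ℝ) * rp (z i)) ∈ S} ≤ ENNReal.ofReal (b - a) := by
  have : IsProbabilityMeasure (volume : Measure UnitAddCircle) := ⟨by simp⟩
  have he : MeasurePreserving (fun z : FT d => z i) volume volume :=
    measurePreserving_eval (fun _ : Fin d => (volume : Measure UnitAddCircle)) i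
  set A : Set UnitAddCircle :=
    {c | Int.fract ((M:ℝ) * (AddCircle.measurableEquivIco 1 0 c : ℝ)) ∈ S}
  have hA : MeasurableSet A := by
    have : Measurable fun c : UnitAddCircle =>
        Int.fract ((M:ℝ) * (AddCircle.measurableEquivIco 1 0 c : ℝ)) := by fun_prop
    exact this hS
  show (volume : Measure (FT d)) ((fun z : FT d => z i) ⁻¹' A) ≤ _
  rw [he.measure_preimage hA.nullMeasurableSet]
  exact circle_small M hM S hS a b ha hsub

/-- Three-condition exceptional set. -/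
def bad3 {d : ℕ} (u w : Fin d) (Mu Mw : ℕ) (δ : ℝ) : Set (FT d) :=
  {z | Int.fract ((Mu:ℝ) * rp (z u)) ∈ Ioo (1 - δ) 1} ∪
    ({z | Int.fract ((Mw:ℝ) * rp (z w)) ∈ Ioo (1 - δ) 1} ∪
      {z | Int.fract ((Mw:ℝ) * rp (z w)) ∈ Ico 0 δ})

lemma measurableSet_bad3 {d : ℕ} (u w : Fin d) (Mu Mw : ℕ) (δ : ℝ) :
    MeasurableSet (bad3 u w Mu Mw δ) := by
  have h1 : Measurable fun z : FT d => Int.fract ((Mu:ℝ) * rp (z u)) := by fun_prop
  have h2 : Measurable fun z : FT d => Int.fract ((Mw:ℝ) * rp (z w)) := by fun_prop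
  exact (h1 measurableSet_Ioo).union ((h2 measurableSet_Ioo).union (h2 measurableSet_Ico))

lemma bad3_small {d : ℕ} (u w : Fin d) {Mu Mw : ℕ} (hu : 0 < Mu) (hw : 0 < Mw) {δ : ℝ}
    (hδ : 0 < δ) (hδ1 : δ < 1) :
    volume (bad3 u w Mu Mw δ) ≤ ENNReal.ofReal (3 * δ) := by
  refine (measure_union_le _ _).trans ((add_le_add le_rfl (measure_union_le _ _)).trans ?_)
  rw [show 3 * δ = δ + (δ + δ) by ring, ENNReal.ofReal_add hδ.le (by positivity),
    ENNReal.ofReal_add hδ.le hδ.le]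
  refine add_le_add ?_ (add_le_add ?_ ?_)
  · refine (coord_small u Mu hu _ measurableSet_Ioo (1 - δ) 1 (by linarith)
      Ioo_subset_Icc_self).trans ?_
    rw [sub_sub_cancel]
  · refine (coord_small w Mw hw _ measurableSet_Ioo (1 - δ) 1 (by linarith)
      Ioo_subset_Icc_self).trans ?_
    rw [sub_sub_cancel]
  · refine (coord_small w Mw hw _ measurableSet_Ico 0 δ le_rfl Ico_subset_Icc_self).trans ?_
    rw [sub_zero]

lemma not_bad3 {d : ℕ} {u w : Fin d} {Mu Mw : ℕ} {δ : ℝ} {z : FT d}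
    (h : z ∉ bad3 u w Mu Mw δ) :
    Int.fract ((Mu:ℝ) * rp (z u)) ≤ 1 - δ ∧ Int.fract ((Mw:ℝ) * rp (z w)) ≤ 1 - δ ∧
      δ ≤ Int.fract ((Mw:ℝ) * rp (z w)) := by
  simp only [bad3, mem_union, mem_setOf_eq, mem_Ioo, mem_Ico, not_or, not_and, not_lt,
    Int.fract_nonneg, forall_const] at h
  refine ⟨?_, ?_, h.2.2⟩
  · by_contra hh
    push Not at hh
    exact absurd (Int.fract_lt_one _) (not_lt.2 (h.1 hh))
  · by_contra hh
    push Not at hh
    exact absurd (Int.fract_lt_one _) (not_lt.2 (h.2.1 hh))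

/-! ### Distances -/

/-- Two good close circle points lie in the same cell and are as close as their representatives. -/
lemma close_same {q : ℕ} (hq : 0 < q) {δ : ℝ} {c c' : UnitAddCircle}
    (h1 : δ ≤ Int.fract ((q:ℝ) * rp c)) (h2 : Int.fract ((q:ℝ) * rp c) ≤ 1 - δ)
    (h1' : δ ≤ Int.fract ((q:ℝ) * rp c')) (h2' : Int.fract ((q:ℝ) * rp c') ≤ 1 - δ)
    (hd : dist c c' < δ / q) :
    dist c c' = |rp c - rp c'| ∧ ⌊(q:ℝ) * rp c⌋ = ⌊(q:ℝ) * rp c'⌋ := by
  obtain ⟨a0, a1⟩ := rp_mem c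
  obtain ⟨b0, b1⟩ := rp_mem c'
  have hq' : (1:ℝ) ≤ q := by exact_mod_cast hq
  have hdist : dist c c' = |rp c - rp c' - round (rp c - rp c')| := by
    rw [dist_eq_norm]
    conv_lhs => rw [← coe_rp c, ← coe_rp c', ← AddCircle.coe_sub]
    exact UnitAddCircle.norm_eq
  set e := rp c - rp c' with he
  have hr : round e = 0 := by
    by_contra hne
    have habs : |e - round e| < δ / q := hdist ▸ hd
    have hq0 : (0:ℝ) < q := by linarith
    rw [lt_div_iff₀ hq0] at habs
    have hcases : (1:ℤ) ≤ round e ∨ round e ≤ -1 := by omega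
    rcases hcases with h | h
    · -- `rp c` is near one, `rp c'` near zero
      have h' : (1:ℝ) ≤ round e := by exact_mod_cast h
      have hle : (round e : ℝ) ≤ 1 := by
        have : round e < 2 := by
          have := abs_sub_round e
          have h3 : (round e : ℝ) < 2 := by linarith [(abs_le.1 this).1]
          exact_mod_cast h3
        exact_mod_cast (show round e ≤ 1 by omega)
      rw [abs_of_neg (by linarith)] at habs
      have : (q:ℝ) * rp c' < δ := by nlinarith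
      rw [Int.fract_eq_self.2 ⟨by positivity, by linarith [Int.fract_lt_one ((q:ℝ) * rp c), h1]⟩]
        at h1'
      linarith
    · have h' : (round e : ℝ) ≤ -1 := by exact_mod_cast h
      have hle : (-1:ℝ) ≤ round e := by
        have : -2 < round e := by
          have := abs_sub_round e
          have h3 : (-2:ℝ) < round e := by linarith [(abs_le.1 this).2]
          exact_mod_cast h3
        exact_mod_cast (show -1 ≤ round e by omega)
      rw [abs_of_pos (by linarith)] at habs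
      have : (q:ℝ) * rp c < δ := by nlinarith
      rw [Int.fract_eq_self.2 ⟨by positivity, by linarith [Int.fract_lt_one ((q:ℝ) * rp c'), h1']⟩]
        at h1
      linarith
  rw [hr] at hdist
  simp only [Int.cast_zero, sub_zero] at hdist
  refine ⟨hdist, ?_⟩
  have hlt : (q:ℝ) * |e| < δ := by
    rw [hdist] at hd
    rwa [lt_div_iff₀ (by linarith), mul_comm] at hd
  have hA := Int.self_sub_floor ((q:ℝ) * rp c)
  have hB := Int.self_sub_floor ((q:ℝ) * rp c')
  have hbound : |((⌊(q:ℝ) * rp c⌋ - ⌊(q:ℝ) * rp c'⌋ : ℤ) : ℝ)| < 1 := by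
    push_cast
    rw [abs_lt]
    have h5 := abs_lt.1 (show |(q:ℝ) * e| < δ by rw [abs_mul, abs_of_nonneg (by linarith)]; exact hlt)
    rw [he, mul_sub] at h5
    constructor <;> linarith
  rw [← Int.cast_abs] at hbound
  have : |⌊(q:ℝ) * rp c⌋ - ⌊(q:ℝ) * rp c'⌋| < 1 := by exact_mod_cast hbound
  rw [abs_lt] at this
  omega

lemma dist_coe_le (a b : ℝ) : dist (a : UnitAddCircle) (b : UnitAddCircle) ≤ |a - b| := by
  rw [dist_eq_norm, ← AddCircle.coe_sub]
  exact QuotientAddGroup.norm_mk_le_norm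

lemma strip_eq {q : ℕ} (hq : 0 < q) {c c' : UnitAddCircle} (h : strip q c = strip q c') :
    ⌊(q:ℝ) * rp c⌋ = ⌊(q:ℝ) * rp c'⌋ := by
  rw [strip, strip, ← sub_eq_zero, ← sub_smul, zsmul_zeta, AddCircle.coe_eq_zero_iff] at h
  obtain ⟨a, ha⟩ := h
  have hq' : (0:ℝ) < q := by exact_mod_cast hq
  rw [zsmul_one] at ha
  field_simp at ha
  have hz : (a * q : ℤ) = ⌊(q:ℝ) * rp c⌋ - ⌊(q:ℝ) * rp c'⌋ := by exact_mod_cast ha
  obtain ⟨a0, a1⟩ := rp_mem c
  obtain ⟨b0, b1⟩ := rp_mem c'
  have l1 : 0 ≤ ⌊(q:ℝ) * rp c⌋ := Int.floor_nonneg.2 (by positivity)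
  have l2 : 0 ≤ ⌊(q:ℝ) * rp c'⌋ := Int.floor_nonneg.2 (by positivity)
  have u1 : ⌊(q:ℝ) * rp c⌋ < (q:ℤ) := Int.floor_lt.2 (by push_cast; nlinarith)
  have u2 : ⌊(q:ℝ) * rp c'⌋ < (q:ℤ) := Int.floor_lt.2 (by push_cast; nlinarith)
  rcases lt_trichotomy a 0 with h | h | h
  · have : (a:ℤ) * q ≤ -(q:ℤ) := by nlinarith
    omega
  · subst h; omega
  · have : (q:ℤ) ≤ a * q := by nlinarith
    omega

end Vale.Agent.P109.Mix
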