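import Mathlib
import Vale.Agent.P109.Mix.Conj
import Vale.Agent.P109.Mix.Limit
import Vale.Agent.P109.Mix.Snap

/-! Existence of the torsion step and of the free step (P109). -/

open MeasureTheory Filter Topology Set
open scoped ContDiff ENNReal

namespace Vale.Agent.P109.Mix

/-- A group of circle points of free rank `n` with infinite torsion, enumerated. -/
structure Grp (n : ℕ) where
  Γ : AddSubgroup UnitAddCircle
  r0 : Fin n → ℝ
  hv0 : ∀ a, proj r0 a ∈ Γ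
  hind : IndepT (proj r0)
  hspan : SpanT Γ (proj r0)
  hinf : {x : UnitAddCircle | x ∈ Γ ∧ IsTor x}.Infinite
  enum : ℕ → UnitAddCircle
  enum_mem : ∀ i, enum i ∈ Γ
  enum_surj : ∀ γ ∈ Γ, ∃ i, enum i = γ

variable {n : ℕ} {H : Grp n}

/-- The torsion part of a target has been absorbed. -/
def Ready (q : ℕ) (v : Fin n → UnitAddCircle) (γ : UnitAddCircle) : Prop :=
  ∃ m : ℕ, 0 < m ∧ (∃ c, ∃ e : ℤ, (m : ℤ) • γ = comb v c + e • zeta q) ∧
    ∀ i : ℕ, 0 < i → i < m → ∀ d, ¬ IsTor ((i : ℤ) • γ - comb v d)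

/-- The data carried to stage `j`. -/
structure St (H : Grp n) (j : ℕ) where
  D : Diffeo (dim n)
  q : ℕ
  hq : 0 < q
  hζ : zeta q ∈ H.Γ
  rf : Fin n → ℝ
  hv : ∀ a, proj rf a ∈ H.Γ
  hind : IndepT (proj rf)
  hspan : SpanT H.Γ (proj rf)
  μ : ℝ
  hμ : 0 < μ
  hμq : μ < dl j / q
  hmod : ∀ a b : FT (dim n), dist a b ≤ μ → dist (D.e a) (D.e b) ≤ (1/2 : ℝ) ^ j
  ready : j % 2 = 1 → Ready q (proj rf) (H.enum (j / 2))

/-- Everything required of the next stage. -/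
structure Next {j : ℕ} (s : St H j) where
  g : Diffeo (dim n)
  q' : ℕ
  hq' : 0 < q'
  hζ' : zeta q' ∈ H.Γ
  rf' : Fin n → ℝ
  hv' : ∀ a, proj rf' a ∈ H.Γ
  hind' : IndepT (proj rf')
  hspan' : SpanT H.Γ (proj rf')
  β : FV (dim n)
  hstep : ∀ p, g.F (p + rhat q' rf') = g.F p + (rhat s.q s.rf + β)
  smallF : ∀ k ≤ j, ∀ p, ‖iteratedFDeriv ℝ k (fun x =>
    conjF s.D (rhat s.q s.rf + β) x - conjF s.D (rhat s.q s.rf) x) p‖ ≤ (1/2 : ℝ) ^ j
  smallG : ∀ k ≤ j, ∀ p, ‖iteratedFDeriv ℝ k (fun x =>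
    conjF s.D (-rhat s.q s.rf + -β) x - conjF s.D (-rhat s.q s.rf) x) p‖ ≤ (1/2 : ℝ) ^ j
  Bad : Set (FT (dim n))
  hBadm : MeasurableSet Bad
  hBad : volume Bad ≤ ENNReal.ofReal (3 * dl j)
  pull : (Fin (n + 1) → ℤ) → Fin (n + 1) → ℤ
  hchar : ∀ c, Sol.psi (wvec q' (proj rf')) (pull c) = Sol.psi (wvec s.q (proj s.rf)) c
  hgood : ∀ z ∉ Bad, ∀ c, Sol.psi (snap s.q (g.e z)) c = Sol.psi (snap q' z) (pull c)
  cover : j % 2 = 1 → ∃ c, Sol.psi (wvec q' (proj rf')) c = H.enum (j / 2)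
  ready' : j % 2 = 0 → Ready q' (proj rf') (H.enum (j / 2))
  isT : Bool
  heven : j % 2 = 0 → isT = true
  hT : isT = true → (∀ z i, i ≠ 0 → g.e z (yi i) = z (yi (i + 1))) ∧
    ∀ z ∉ Bad, ∀ z' ∉ Bad, snap q' z = snap q' z' →
      dist (g.e z (yi 0)) (g.e z' (yi 0)) ≤ s.μ ∧
      (dist (z (yi 1)) (z' (yi 1)) ≤ s.μ →
        dist (g.e z (xi 0)) (g.e z' (xi 0)) ≤ dist (z (yi 1)) (z' (yi 1)))
  hS : isT = false → (∀ z, g.e z (xi 0) = z (xi 0)) ∧
    (∀ z i, i ≠ 0 → g.e z (yi i) = z (yi i)) ∧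
    ∀ z ∉ Bad, ∀ z' ∉ Bad, snap q' z = snap q' z' → dist (z (yi 0)) (z' (yi 0)) ≤ s.μ →
      dist (g.e z (yi 0)) (g.e z' (yi 0)) ≤ dist (z (yi 0)) (z' (yi 0))

lemma coord_eq {d : ℕ} (D : Diffeo d) (z : FT d) (u : Fin d) :
    D.e z u = ((D.F (lift z) u : ℝ) : UnitAddCircle) := by
  conv_lhs => rw [← proj_lift z, ← D.hF]
  rfl

/-- Allowed size of perturbations. -/
lemma eta_exists {j : ℕ} (s : St H j) : ∃ η > 0, ∀ β : FV (dim n), ‖β‖ < η → ∀ k ≤ j, ∀ p,
    ‖iteratedFDeriv ℝ k (fun x => conjF s.D (rhat s.q s.rf + β) x - conjF s.D (rhat s.q s.rf) x) p‖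
      ≤ (1/2 : ℝ) ^ j ∧
    ‖iteratedFDeriv ℝ k (fun x =>
      conjF s.D (-rhat s.q s.rf + -β) x - conjF s.D (-rhat s.q s.rf) x) p‖ ≤ (1/2 : ℝ) ^ j := by
  have hε : (0:ℝ) < (1/2) ^ j := by positivity
  have h : ∀ᶠ β in 𝓝 (0 : FV (dim n)), ∀ k ∈ Finset.range (j + 1), ∀ p,
      ‖iteratedFDeriv ℝ k (fun x =>
        conjF s.D (rhat s.q s.rf + β) x - conjF s.D (rhat s.q s.rf) x) p‖ ≤ (1/2 : ℝ) ^ j ∧
      ‖iteratedFDeriv ℝ k (fun x =>
        conjF s.D (-rhat s.q s.rf + -β) x - conjF s.D (-rhat s.q s.rf) x) p‖ ≤ (1/2 : ℝ) ^ j := by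
    refine (Finset.range (j + 1)).eventually_all.2 fun k _ => ?_
    obtain ⟨η1, h1, g1⟩ := conj_diff_small s.D (rhat s.q s.rf) k hε
    obtain ⟨η2, h2, g2⟩ := conj_diff_small s.D (-rhat s.q s.rf) k hε
    filter_upwards [Metric.ball_mem_nhds 0 (lt_min h1 h2)] with β hβ p
    rw [mem_ball_zero_iff, lt_min_iff] at hβ
    exact ⟨g1 β hβ.1 p, g2 (-β) (by rw [norm_neg]; exact hβ.2) p⟩
  obtain ⟨η, hη, hball⟩ := Metric.eventually_nhds_iff.1 h
  exact ⟨η, hη, fun β hβ k hk p => hball (by simpa using hβ) k (Finset.mem_range.2 (by omega)) p⟩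

lemma torsion_step {j : ℕ} (s : St H j) (h : j % 2 = 0 ∨ n = 0) : Nonempty (Next s) := by
  classical
  obtain ⟨η, hη, hsmall⟩ := eta_exists s
  set γ := H.enum (j / 2)
  have hγ : γ ∈ H.Γ := H.enum_mem _
  have hex : ∃ m : ℕ, 0 < m ∧ ∃ c, IsTor ((m : ℤ) • γ - comb (proj s.rf) c) := s.hspan γ hγ
  set m := Nat.find hex
  obtain ⟨hm, c, hc⟩ : 0 < m ∧ ∃ c, IsTor ((m : ℤ) • γ - comb (proj s.rf) c) := Nat.find_spec hex
  have hmin : ∀ i : ℕ, 0 < i → i < m → ∀ d, ¬ IsTor ((i : ℤ) • γ - comb (proj s.rf) d) :=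
    fun i hi him d hd => Nat.find_min hex him ⟨hi, d, hd⟩
  set τ := (m : ℤ) • γ - comb (proj s.rf) c
  have hτ : τ ∈ H.Γ := H.Γ.sub_mem (H.Γ.zsmul_mem hγ _)
    (H.Γ.sum_mem fun a _ => H.Γ.zsmul_mem (s.hv a) _)
  obtain ⟨B, hB⟩ := exists_nat_gt (max ((s.q : ℝ) / s.μ) (1 / η))
  obtain ⟨N, hNB, hN, hd, hζN, a, ha⟩ := next_level H.Γ H.hinf s.hq s.hζ hτ hc B
  have hN' : (0:ℝ) < N := by exact_mod_cast hN
  have hBN : (B:ℝ) ≤ N := by exact_mod_cast hNB
  have hqN : (s.q : ℝ) / N ≤ s.μ := by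
    rw [div_le_iff₀ hN', mul_comm, ← div_le_iff₀ s.hμ]
    linarith [le_max_left ((s.q : ℝ) / s.μ) (1 / η)]
  have hηN : 1 / (N:ℝ) < η := by
    rw [div_lt_iff₀ hN', mul_comm, ← div_lt_iff₀ hη]
    linarith [le_max_right ((s.q : ℝ) / s.μ) (1 / η)]
  set β : FV (dim n) := Pi.single (yi 0) (1 / (N:ℝ)) with hβdef
  have hβ : ‖β‖ < η := by
    rw [pi_norm_lt_iff hη]
    intro u
    by_cases hu : u = yi (0 : Fin (n + 1))
    · subst hu; rw [hβdef, Pi.single_eq_same, Real.norm_eq_abs, abs_of_pos (by positivity)]; exact hηN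
    · rw [hβdef, Pi.single_eq_of_ne hu, norm_zero]; exact hη
  obtain ⟨k, hk⟩ := hd
  set g : Diffeo (dim n) := gT s.q N s.hq ⟨k, hk⟩ j
  have hk0 : 0 < k := Nat.pos_of_mul_pos_left (by omega : 0 < s.q * k)
  have hζk : zeta s.q = (k:ℤ) • zeta N := by rw [hk]; exact zeta_mul s.q k hk0
  -- values at good points
  have hval : ∀ z, z ∉ bad3 (xi 0) (yi (1 : Fin (n + 1))) N s.q (dl j) →
      g.e z (xi 0) = ((((⌊(N:ℝ) * rp (z (xi 0))⌋ + ⌊(s.q:ℝ) * rp (z (yi 1))⌋ + 1 : ℤ) : ℝ) / s.q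
          - rp (z (yi 1)) : ℝ) : UnitAddCircle) ∧
      g.e z (yi 0) = ((rp (z (xi 0)) + (⌊(s.q:ℝ) * rp (z (yi 1))⌋ : ℝ) / N : ℝ) : UnitAddCircle) ∧
      strip s.q (g.e z (xi 0)) = ⌊(N:ℝ) * rp (z (xi 0))⌋ • zeta s.q := by
    intro z hz
    obtain ⟨h1, h2, h3⟩ := not_bad3 hz
    have hy0 : ⌊lift z (yi 1)⌋ = 0 := Int.floor_eq_zero_iff.2 (rp_mem _)
    obtain ⟨e1, e2⟩ := gT_good s.q N s.hq ⟨k, hk⟩ hN j (lift z) (by
      simp only [BadT, not_or, not_lt]; exact ⟨h1, h2, h3⟩)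
    rw [hy0] at e1 e2
    simp only [mul_zero, sub_zero] at e1 e2
    refine ⟨by rw [coord_eq, e1]; rfl, by rw [coord_eq, e2]; rfl, ?_⟩
    rw [coord_eq, e1, strip_coe s.hq]
    congr 1
    rw [Int.floor_eq_iff]
    have hq' : (s.q:ℝ) ≠ 0 := by exact_mod_cast s.hq.ne'
    have e := Int.self_sub_floor ((s.q:ℝ) * rp (z (yi 1)))
    have := Int.fract_lt_one ((s.q:ℝ) * rp (z (yi 1)))
    have := dl_pos j
    show _ ≤ (s.q:ℝ) * (((⌊(N:ℝ) * rp (z (xi 0))⌋ + ⌊(s.q:ℝ) * rp (z (yi 1))⌋ + 1 : ℤ) : ℝ) / s.q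
        - rp (z (yi 1))) ∧ _
    rw [mul_sub, mul_div_cancel₀ _ hq']
    push_cast
    constructor
    · linarith
    · simp only [lift] at *
      rw [mul_sub, mul_div_cancel₀ _ hq']
      linarith
  have hfree : ∀ z (b : Fin n), g.e z (xi b.succ) = z (xi b.succ) := by
    intro z b
    rw [coord_eq, gT_F_free]; exact coe_rp _
  refine ⟨{
    g := g, q' := N, hq' := hN, hζ' := hζN, rf' := s.rf, hv' := s.hv, hind' := s.hind,
    hspan' := s.hspan, β := β
    hstep := ?_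
    smallF := fun k hk p => (hsmall β hβ k hk p).1
    smallG := fun k hk p => (hsmall β hβ k hk p).2
    Bad := bad3 (xi 0) (yi 1) N s.q (dl j)
    hBadm := measurableSet_bad3 _ _ _ _ _
    hBad := bad3_small _ _ hN s.hq (dl_pos j) (dl_lt_one j)
    pull := fun c => Fin.cons ((k:ℤ) * c 0) (fun b => c b.succ)
    hchar := ?_
    hgood := ?_
    cover := ?_
    ready' := fun _ => ⟨m, hm, ⟨c, a, by rw [← ha]; simp [τ, γ]⟩, hmin⟩
    isT := true
    heven := fun _ => rfl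
    hT := fun _ => ⟨?_, ?_⟩
    hS := fun h => absurd h (by simp) }⟩
  · intro p
    refine gT_step s.q N s.hq ⟨k, hk⟩ hN j p _ (rhat_x0 _ _) (rhat_y _ _) _ ?_ ?_ ?_ ?_
    · simp [β, rhat_x0, xi_ne_yi]
    · intro b; simp [β, rhat_free, xi_ne_yi]
    · simp [β, rhat_y]
    · intro i hi; simp [β, rhat_y, yi_inj, hi]
  · intro c'
    simp only [wvec, psi_cons, Fin.cons_zero, Fin.cons_succ]
    rw [mul_comm, mul_smul, ← hζk]
  · intro z hz c'
    simp only [snap, psi_cons, Fin.cons_zero, Fin.cons_succ, hfree, (hval z hz).2.2]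
    congr 1
    rw [strip, hζk, smul_smul, smul_smul, smul_smul]
    congr 1; ring
  · intro hj
    obtain hn : n = 0 := h.resolve_left (by omega)
    subst hn
    have hm1 : m = 1 := by
      by_contra hne
      obtain ⟨i, hi, d, hd⟩ := s.hspan γ hγ
      apply hmin 1 one_pos (by omega) 0
      have hd0 : comb (proj s.rf) d = 0 := by simp [comb]
      rw [hd0, sub_zero] at hd
      simpa [comb] using hd.of_zsmul (by exact_mod_cast hi.ne')
    refine ⟨Fin.cons a 0, ?_⟩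
    rw [wvec, psi_cons]
    simp only [Fin.cons_zero, Fin.cons_succ, ← ha, τ, hm1]
    simp [comb, γ]
  · intro z i hi
    rw [coord_eq, gT_F_slot _ _ _ _ _ _ _ hi]; exact coe_rp _
  · intro z hz z' hz' hsn
    have hi : ⌊(N:ℝ) * rp (z (xi 0))⌋ = ⌊(N:ℝ) * rp (z' (xi 0))⌋ :=
      strip_eq hN (by simpa [snap] using congrFun hsn 0)
    obtain ⟨x1, y1, -⟩ := hval z hz
    obtain ⟨x2, y2, -⟩ := hval z' hz'
    obtain ⟨-, h2, h3⟩ := not_bad3 hz
    obtain ⟨-, h2', h3'⟩ := not_bad3 hz'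
    refine ⟨?_, ?_⟩
    · rw [y1, y2]
      refine (dist_coe_le _ _).trans (le_trans ?_ hqN)
      have hbound : ∀ w : FT (dim n), (⌊(N:ℝ) * rp (w (xi 0))⌋ : ℝ) / N ≤ rp (w (xi 0)) + (⌊(s.q:ℝ) * rp (w (yi 1))⌋ : ℝ) / N ∧
          rp (w (xi 0)) + (⌊(s.q:ℝ) * rp (w (yi 1))⌋ : ℝ) / N ≤ ((⌊(N:ℝ) * rp (w (xi 0))⌋ : ℝ) + s.q) / N := by
        intro w
        obtain ⟨b0, b1⟩ := rp_mem (w (yi 1))
        have hc0 : (0:ℝ) ≤ ⌊(s.q:ℝ) * rp (w (yi 1))⌋ := by
          exact_mod_cast Int.floor_nonneg.2 (by positivity)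
        have hc1 : (⌊(s.q:ℝ) * rp (w (yi 1))⌋ : ℝ) + 1 ≤ s.q := by
          have : ⌊(s.q:ℝ) * rp (w (yi 1))⌋ < (s.q:ℤ) := Int.floor_lt.2 (by
            push_cast; exact mul_lt_of_lt_one_right (by exact_mod_cast s.hq) b1)
          exact_mod_cast this
        have := Int.floor_le ((N:ℝ) * rp (w (xi 0)))
        have := Int.lt_floor_add_one ((N:ℝ) * rp (w (xi 0)))
        constructor
        · rw [div_le_iff₀ hN', add_mul, div_mul_cancel₀ _ hN'.ne']; linarith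
        · rw [le_div_iff₀ hN', add_mul, div_mul_cancel₀ _ hN'.ne']; linarith
      obtain ⟨l1, u1⟩ := hbound z
      obtain ⟨l2, u2⟩ := hbound z'
      rw [add_div] at u1 u2
      rw [hi] at l1 u1
      rw [abs_le]; constructor <;> linarith
    · intro hd
      obtain ⟨hdd, hfl⟩ := close_same s.hq h3 h2 h3' h2' (lt_of_le_of_lt hd s.hμq)
      rw [x1, x2, hdd]
      refine (dist_coe_le _ _).trans (le_of_eq ?_)
      rw [hi, hfl, abs_sub_comm (rp (z (yi 1)))]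
      congr 1; ring

lemma free_step {k j : ℕ} {H : Grp (k + 1)} (s : St H j) (hj : j % 2 = 1) : Nonempty (Next s) := by
  classical
  obtain ⟨η, hη, hsmall⟩ := eta_exists s
  set γ := H.enum (j / 2)
  obtain ⟨m, hm, ⟨c, e, hmem⟩, hmin⟩ := s.ready hj
  obtain ⟨A, A', v', b, hA, hA', hv', hind', hspan', hvo, hvl, d, d0, hcov⟩ :=
    exists_refine H.Γ (proj s.rf) s.hv s.hind s.hspan s.hq s.hζ γ (H.enum_mem _) m hm c e hmem hmin
  set l := Fin.last k with hl
  set X : Fin (k + 1) → ℝ := mulR A s.rf with hX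
  have hXp : ∀ a, ((X a : ℝ) : UnitAddCircle) = comb (proj s.rf) (A a) := fun a =>
    congrFun (proj_mulR A s.rf) a
  obtain ⟨t, ht⟩ := QuotientAddGroup.mk_surjective (v' l)
  change ((t : ℝ) : UnitAddCircle) = v' l at ht
  have hq' : (s.q : ℝ) ≠ 0 := by exact_mod_cast s.hq.ne'
  -- the integer making the lifts exact
  obtain ⟨z, hz⟩ : ∃ z : ℤ, (m:ℝ) * t - X l - (b:ℝ) / s.q = z := by
    have h0 : (((m:ℝ) * t - X l - (b:ℝ) / s.q : ℝ) : UnitAddCircle) = 0 := by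
      rw [AddCircle.coe_sub, AddCircle.coe_sub, hXp, ← zsmul_zeta,
        show (m:ℝ) * t = ((m:ℤ) • t : ℝ) by simp, AddCircle.coe_zsmul, ht, hvl]
      abel
    obtain ⟨z, hz⟩ := (AddCircle.coe_eq_zero_iff (1:ℝ)).1 h0
    exact ⟨z, by rw [← hz]; simp⟩
  set b' : ℤ := b + z * s.q with hb'
  have hexact : (m:ℝ) * t - (b':ℝ) / s.q = X l := by
    rw [hb']; push_cast
    rw [add_div, mul_div_assoc, div_self hq', mul_one]; linarith
  set rf' : Fin (k + 1) → ℝ := Function.update X l t with hrf'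
  have hrfv : proj rf' = v' := by
    funext a
    by_cases ha : a = l
    · subst ha; simp [proj, hrf', ht]
    · simp [proj, hrf', ha, hXp, hvo a ha]
  -- the vertical shift
  have : Fact ((0:ℝ) < 1) := ⟨one_pos⟩
  set u : UnitAddCircle := (((m:ℝ) * t : ℝ) : UnitAddCircle)
  have hu : ¬ IsTor u := by
    intro hu
    have hu' : IsTor ((m:ℤ) • v' l) := by
      rw [← ht, ← AddCircle.coe_zsmul, zsmul_eq_mul]; push_cast; exact hu
    have h1 := hind' (Pi.single l (m:ℤ)) (by simpa [comb, Pi.single_apply, ite_smul] using hu')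
    have h2 := congrFun h1 l
    simp at h2
    omega
  have hdense : DenseRange (fun i : ℤ => i • u) := by
    rw [AddCircle.denseRange_zsmul_iff, addOrderOf_eq_zero_iff, isOfFinAddOrder_iff_zsmul_eq_zero]
    rintro ⟨i, hi, hi0⟩
    exact hu ⟨i, hi, hi0⟩
  obtain ⟨C, hC⟩ := hdense.exists_dist_lt (-(t : UnitAddCircle)) hη
  set r : ℝ := t * (1 + (C:ℝ) * m) with hr
  set i0 : ℤ := round r
  have hsm : |r - i0| < η := by
    rw [← UnitAddCircle.norm_eq]
    rw [dist_eq_norm] at hC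
    have e : (r : UnitAddCircle) = -( -(t : UnitAddCircle) - C • u) := by
      rw [hr, show t * (1 + (C:ℝ) * m) = t + (C:ℝ) * ((m:ℝ) * t) by ring, AddCircle.coe_add,
        show (C:ℝ) * ((m:ℝ) * t) = C • ((m:ℝ) * t) by simp, AddCircle.coe_zsmul]
      abel
    rw [e, norm_neg]; exact hC
  set S : FreeData (k + 1) := ⟨A, A', hA, hA', l, m, hm, b', C, i0⟩ with hSdef
  set g : Diffeo (dim (k + 1)) := S.g s.q s.hq j
  set β : FV (dim (k + 1)) := Pi.single (yi 0) (r - i0) with hβdef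
  have hβ : ‖β‖ < η := by
    rw [pi_norm_lt_iff hη]
    intro w
    by_cases hw : w = yi (0 : Fin (k + 1 + 1))
    · subst hw; rw [hβdef, Pi.single_eq_same, Real.norm_eq_abs]; exact hsm
    · rw [hβdef, Pi.single_eq_of_ne hw, norm_zero]; exact hη
  have hx0 : ∀ z, g.e z (xi 0) = z (xi 0) := fun z => by
    rw [coord_eq, FreeData.g_x0]; exact coe_rp _
  have hslot : ∀ z i, i ≠ 0 → g.e z (yi i) = z (yi i) := fun z i hi => by
    rw [coord_eq, FreeData.g_slot _ _ _ _ _ _ hi]; exact coe_rp _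
  have hval : ∀ z, z ∉ bad3 (xi 0) (yi (0 : Fin (k + 1 + 1))) s.q 1 (dl j) →
      (∀ a, g.e z (xi (Fin.succ a)) = mulT A' (fun i => if i = l then
          (m:ℤ) • z (xi l.succ) - b' • strip s.q (z (xi 0)) else z (xi i.succ)) a) ∧
      g.e z (yi 0) = ((rp (z (xi l.succ)) + Int.fract (rp (z (yi 0))) / m +
        (C:ℝ) * ((m:ℝ) * rp (z (xi l.succ))) : ℝ) : UnitAddCircle) := by
    intro z hz
    obtain ⟨h1, h2, h3⟩ := not_bad3 hz
    simp only [Nat.cast_one, one_mul] at h2 h3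
    obtain ⟨e1, e2⟩ := S.g_good s.q s.hq j (lift z) (by
      simp only [FreeData.Bad, not_or, not_lt]; exact ⟨h2, h3, h1⟩)
    refine ⟨fun a => ?_, by rw [coord_eq]; exact e2⟩
    rw [coord_eq, e1 a]
    congr 1
    funext i
    by_cases hi : i = l
    · subst hi
      simp only [hSdef, if_true]
      rw [show ((lift z (xi l.succ) : ℝ) : UnitAddCircle) = z (xi l.succ) from coe_rp _,
        strip, zsmul_zeta]
      rfl
    · simp only [hSdef, hi, if_false]; exact coe_rp _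
  set dd : (Fin (k + 1 + 1) → ℤ) → Fin (k + 1) → ℤ := fun c =>
    Matrix.vecMul (fun a => c a.succ) A'
  set pull : (Fin (k + 1 + 1) → ℤ) → Fin (k + 1 + 1) → ℤ := fun c =>
    Fin.cons (c 0 - dd c l * b') (fun a => dd c a * (if a = l then (m:ℤ) else 1))
  have key : ∀ (x0 : UnitAddCircle) (xf : Fin (k + 1) → UnitAddCircle) c,
      c 0 • x0 + comb (mulT A' (fun i => if i = l then (m:ℤ) • xf l - b' • x0 else xf i))
        (fun a => c a.succ) = pull c 0 • x0 + comb xf (fun a => pull c a.succ) := by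
    intro x0 xf c
    have e : comb (mulT A' (fun i => if i = l then (m:ℤ) • xf l - b' • x0 else xf i))
        (fun a => c a.succ) = ∑ a, dd c a • (if a = l then (m:ℤ) • xf l - b' • x0 else xf a) := by
      simp only [comb, mulT, dd, Matrix.vecMul, dotProduct, Finset.smul_sum, Finset.sum_smul,
        smul_smul]
      rw [Finset.sum_comm]
    rw [e]
    simp only [pull, Fin.cons_zero, Fin.cons_succ, comb]
    rw [← Finset.sum_erase_add _ _ (Finset.mem_univ l),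
      ← Finset.sum_erase_add Finset.univ
        (fun a => (dd c a * (if a = l then (m:ℤ) else 1)) • xf a) (Finset.mem_univ l)]
    have : ∀ a ∈ Finset.univ.erase l, dd c a • (if a = l then (m:ℤ) • xf l - b' • x0 else xf a)
        = (dd c a * (if a = l then (m:ℤ) else 1)) • xf a := fun a ha => by
      simp [Finset.ne_of_mem_erase ha]
    rw [Finset.sum_congr rfl this, if_pos rfl, if_pos rfl, smul_sub, smul_smul, smul_smul, sub_smul]
    abel
  refine ⟨{
    g := g, q' := s.q, hq' := s.hq, hζ' := s.hζ, rf' := rf'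
    hv' := fun a => by rw [hrfv]; exact hv' a
    hind' := hrfv ▸ hind', hspan' := hrfv ▸ hspan', β := β
    hstep := ?_
    smallF := fun k hk p => (hsmall β hβ k hk p).1
    smallG := fun k hk p => (hsmall β hβ k hk p).2
    Bad := bad3 (xi 0) (yi 0) s.q 1 (dl j)
    hBadm := measurableSet_bad3 _ _ _ _ _
    hBad := bad3_small _ _ s.hq one_pos (dl_pos j) (dl_lt_one j)
    pull := pull
    hchar := ?_
    hgood := ?_
    cover := fun _ => ⟨Fin.cons d0 d, ?_⟩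
    ready' := fun h => by omega
    isT := false
    heven := fun h => by omega
    hT := fun h => absurd h (by simp)
    hS := fun _ => ⟨hx0, hslot, ?_⟩ }⟩
  · intro p
    refine S.g_step s.q s.hq j p _ _ (rhat_x0 _ _) (rhat_y _ _) ?_ ?_ ?_ ?_
    · simp [β, rhat_x0, xi_ne_yi]
    · intro a
      have e : (fun i => if i = l then (m:ℝ) * rhat s.q rf' (xi l.succ) - (b':ℝ) / s.q
          else rhat s.q rf' (xi i.succ)) = X := by
        funext i
        by_cases hi : i = l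
        · subst hi; simp [rhat_free, hrf', hexact]
        · simp [rhat_free, hrf', hi]
      simp only [hSdef]
      rw [e, hX, mulR_mul, hA', mulR_one]
      simp [β, rhat_free, xi_ne_yi]
    · simp [hSdef, β, rhat_y, rhat_free, hrf', hr]
    · intro i hi; simp [β, rhat_y, yi_inj, hi]
  · intro c'
    rw [hrfv]
    simp only [wvec, psi_cons]
    rw [← key (zeta s.q) v' c']
    congr 2
    have e : (fun i => if i = l then (m:ℤ) • v' l - b' • zeta s.q else v' i) = mulT A (proj s.rf) := by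
      funext i
      by_cases hi : i = l
      · subst hi
        rw [if_pos rfl, hvl, hb', add_smul, mul_smul, zeta_self s.hq, smul_zero, add_zero,
          add_sub_cancel_right]
        rfl
      · rw [if_neg hi, hvo i hi]; rfl
    rw [e, mulT_mul, hA', mulT_one]
  · intro z hz c'
    simp only [snap, psi_cons, hx0, (hval z hz).1]
    exact key (strip s.q (z (xi 0))) (fun a => z (xi a.succ)) c'
  · rw [hrfv, wvec, psi_cons]
    simp only [Fin.cons_zero, Fin.cons_succ]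
    rw [add_comm]; exact hcov.symm
  · intro z hz z' hz' hsn hd
    obtain ⟨-, h2, h3⟩ := not_bad3 hz
    obtain ⟨-, h2', h3'⟩ := not_bad3 hz'
    have hx : z (xi l.succ) = z' (xi l.succ) := by simpa [snap] using congrFun hsn l.succ
    have hq1 : (1:ℝ) ≤ s.q := by exact_mod_cast s.hq
    have hlt : dist (z (yi 0)) (z' (yi 0)) < dl j / ((1:ℕ):ℝ) := by
      refine lt_of_le_of_lt hd (lt_of_lt_of_le s.hμq ?_)
      rw [Nat.cast_one, div_one]
      exact div_le_self (dl_pos j).le hq1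
    obtain ⟨hdd, -⟩ := close_same one_pos h3 h2 h3' h2' hlt
    rw [(hval z hz).2, (hval z' hz').2, hx, hdd]
    refine (dist_coe_le _ _).trans ?_
    rw [Int.fract_eq_self.2 (rp_mem _), Int.fract_eq_self.2 (rp_mem _)]
    have hm1 : (1:ℝ) ≤ m := by exact_mod_cast hm
    rw [show ∀ x y : ℝ, rp (z' (xi l.succ)) + x / m + (C:ℝ) * ((m:ℝ) * rp (z' (xi l.succ))) -
        (rp (z' (xi l.succ)) + y / m + (C:ℝ) * ((m:ℝ) * rp (z' (xi l.succ)))) = (x - y) / m from
      fun x y => by ring, abs_div, abs_of_pos (by linarith : (0:ℝ) < m)]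
    exact div_le_self (abs_nonneg _) hm1

lemma next_exists {j : ℕ} (s : St H j) : Nonempty (Next s) := by
  rcases Nat.eq_zero_or_pos n with hn | hn
  · exact torsion_step s (Or.inr hn)
  · rcases Nat.mod_two_eq_zero_or_one j with hj | hj
    · exact torsion_step s (Or.inl hj)
    · obtain ⟨k, rfl⟩ : ∃ k, n = k + 1 := ⟨n - 1, by omega⟩
      exact free_step s hj

end Vale.Agent.P109.Mix
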