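import Mathlib
import Vale.Agent.P109.Mix.Steps

/-! The sequence of conjugated translations for a mixed group (P109). -/

open MeasureTheory Filter Topology Set
open scoped ContDiff

namespace Vale.Agent.P109.Mix

variable {n : ℕ}

lemma mu_exists (D : Diffeo (dim n)) {q : ℕ} (hq : 0 < q) {μ0 : ℝ} (hμ0 : 0 < μ0) (j : ℕ) :
    ∃ μ, 0 < μ ∧ μ ≤ μ0 ∧ μ < dl j / q ∧
      ∀ a b, dist a b ≤ μ → dist (D.e a) (D.e b) ≤ (1/2 : ℝ) ^ j := by
  obtain ⟨η, hη, h⟩ := Metric.uniformContinuous_iff.1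
    (CompactSpace.uniformContinuous_of_continuous D.e.continuous) ((1/2 : ℝ) ^ j) (by positivity)
  have hb : 0 < dl j / q := div_pos (dl_pos j) (by exact_mod_cast hq)
  refine ⟨min μ0 (min (dl j / q) η) / 2, by have := lt_min hμ0 (lt_min hb hη); linarith, ?_, ?_,
    fun a b hab => (h (lt_of_le_of_lt hab ?_)).le⟩
  all_goals
    have h1 := min_le_left μ0 (min (dl j / q) η)
    have h2 := min_le_right μ0 (min (dl j / q) η)
    have h3 := min_le_left (dl j / q) η
    have h4 := min_le_right (dl j / q) η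
    have h5 := lt_min hμ0 (lt_min hb hη)
    linarith

namespace Grp

variable (H : Grp n)

/-- The chosen step. -/
noncomputable def nxt {j : ℕ} (s : St H j) : Next s := (next_exists s).some

/-- The stages. -/
noncomputable def st : (j : ℕ) → St H j
  | 0 => ⟨Diffeo.refl, 1, one_pos, by
      have : zeta 1 = 0 := by simpa using zeta_self (q := 1) one_pos
      rw [this]; exact H.Γ.zero_mem,
      H.r0, H.hv0, H.hind, H.hspan,
      (mu_exists (Diffeo.refl (d := dim n)) one_pos one_pos 0).choose,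
      (mu_exists (Diffeo.refl (d := dim n)) one_pos one_pos 0).choose_spec.1,
      (mu_exists (Diffeo.refl (d := dim n)) one_pos one_pos 0).choose_spec.2.2.1,
      (mu_exists (Diffeo.refl (d := dim n)) one_pos one_pos 0).choose_spec.2.2.2,
      fun h => by omega⟩
  | j + 1 =>
    have h := mu_exists ((st j).D.comp (H.nxt (st j)).g) (H.nxt (st j)).hq' (st j).hμ (j + 1)
    ⟨(st j).D.comp (H.nxt (st j)).g, (H.nxt (st j)).q', (H.nxt (st j)).hq', (H.nxt (st j)).hζ',
      (H.nxt (st j)).rf', (H.nxt (st j)).hv', (H.nxt (st j)).hind', (H.nxt (st j)).hspan',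
      h.choose, h.choose_spec.1, h.choose_spec.2.2.1, h.choose_spec.2.2.2,
      fun hj => by
        have h2 : (j + 1) / 2 = j / 2 := by omega
        rw [h2]; exact (H.nxt (st j)).ready' (by omega)⟩

noncomputable def D (j : ℕ) : Diffeo (dim n) := (H.st j).D

noncomputable def Q (j : ℕ) : ℕ := (H.st j).q

noncomputable def μ (j : ℕ) : ℝ := (H.st j).μ

noncomputable def r (j : ℕ) : FV (dim n) := rhat (H.st j).q (H.st j).rf

noncomputable def w (j : ℕ) : Sol.Tr n := wvec (H.st j).q (proj (H.st j).rf)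

noncomputable def stp (j : ℕ) : Next (H.st j) := H.nxt (H.st j)

noncomputable def g (j : ℕ) : Diffeo (dim n) := (H.stp j).g

lemma Q_succ (j : ℕ) : H.Q (j + 1) = (H.stp j).q' := rfl

lemma w_succ (j : ℕ) : H.w (j + 1) = wvec (H.stp j).q' (proj (H.stp j).rf') := rfl

lemma D_succ (j : ℕ) : H.D (j + 1) = (H.D j).comp (H.g j) := rfl

lemma Q_pos (j : ℕ) : 0 < H.Q j := (H.st j).hq

lemma μ_pos (j : ℕ) : 0 < H.μ j := (H.st j).hμ

lemma μ_succ (j : ℕ) : H.μ (j + 1) ≤ H.μ j :=
  (mu_exists ((H.st j).D.comp (H.nxt (H.st j)).g) (H.nxt (H.st j)).hq' (H.st j).hμ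
    (j + 1)).choose_spec.2.1

noncomputable def cF (j : ℕ) : FV (dim n) → FV (dim n) := conjF (H.D j) (H.r j)

noncomputable def cG (j : ℕ) : FV (dim n) → FV (dim n) := conjF (H.D j) (-H.r j)

lemma g_r (j : ℕ) (p : FV (dim n)) :
    (H.g j).F (p + H.r (j + 1)) = (H.g j).F p + (H.r j + (H.stp j).β) := (H.stp j).hstep p

lemma cF_succ (j : ℕ) : H.cF (j + 1) = conjF (H.D j) (H.r j + (H.stp j).β) := by
  funext p
  simp only [cF, conjF, H.D_succ, Diffeo.comp, Function.comp_apply]
  rw [H.g_r, (H.g j).FG]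

lemma cG_succ (j : ℕ) : H.cG (j + 1) = conjF (H.D j) (-H.r j + -(H.stp j).β) := by
  funext p
  simp only [cG, conjF, H.D_succ, Diffeo.comp, Function.comp_apply]
  congr 1
  have h := H.g_r j ((H.g j).G ((H.D j).G p) + -H.r (j + 1))
  rw [neg_add_cancel_right, (H.g j).FG] at h
  rw [← neg_add]
  exact eq_add_neg_of_add_eq h.symm

noncomputable def seqF : FastSeq (dim n) where
  c := H.cF
  smooth _ := conjF_smooth _ _
  small j k hk p := by rw [H.cF_succ]; exact (H.stp j).smallF k hk p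
  bdd j k := by rw [H.cF_succ]; exact conj_diff_bounded _ _ _ k
  equi _ p _ hm := conjF_add_int _ _ p hm

noncomputable def seqG : FastSeq (dim n) where
  c := H.cG
  smooth _ := conjF_smooth _ _
  small j k hk p := by rw [H.cG_succ]; exact (H.stp j).smallG k hk p
  bdd j k := by rw [H.cG_succ]; exact conj_diff_bounded _ _ _ k
  equi _ p _ hm := conjF_add_int _ _ p hm

lemma cFG (j : ℕ) (p : FV (dim n)) : H.cF j (H.cG j p) = p := conjF_inv (H.D j) (H.r j) p

lemma cGF (j : ℕ) (p : FV (dim n)) : H.cG j (H.cF j p) = p := by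
  simpa [cF, cG] using conjF_inv (H.D j) (-H.r j) p

/-- The diffeomorphism realising the rotation. -/
noncomputable def S : FT (dim n) ≃ₜ FT (dim n) := H.seqF.homeo H.seqG H.cFG H.cGF

/-- The approximations. -/
noncomputable def T (j : ℕ) (z : FT (dim n)) : FT (dim n) :=
  (H.D j).e ((H.D j).e.symm z + proj (H.r j))

lemma T_proj (j : ℕ) (p : FV (dim n)) : H.T j (proj p) = proj (H.cF j p) :=
  (proj_conjF _ _ _).symm

lemma T_mp (j : ℕ) : MeasurePreserving (H.T j) volume volume :=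
  (H.D j).mp.comp ((measurePreserving_add_right volume (proj (H.r j))).comp (H.D j).symm.mp)

lemma T_tendsto (z : FT (dim n)) : Tendsto (fun j => H.T j z) atTop (𝓝 (H.S z)) :=
  H.seqF.tendsto_onTorus _ H.T_proj z

lemma S_mp : MeasurePreserving H.S volume volume :=
  mp_of_tendsto H.T_mp H.S.continuous H.T_tendsto

lemma S_lift (p : FV (dim n)) : H.S (proj p) = proj (H.seqF.lim p) := H.seqF.onTorus_proj p

lemma S_symm_lift (p : FV (dim n)) : H.S.symm (proj p) = proj (H.seqG.lim p) :=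
  H.seqG.onTorus_proj p

/-- Coordinates of stage `j`. -/
noncomputable def pt (j : ℕ) (z : FT (dim n)) : FT (dim n) := (H.D j).e.symm z

lemma continuous_pt (j : ℕ) : Continuous (H.pt j) := (H.D j).e.symm.continuous

lemma pt_succ (j : ℕ) (z : FT (dim n)) : (H.g j).e (H.pt (j + 1) z) = H.pt j z := by
  simp [pt, H.D_succ, Diffeo.comp]

lemma pt_T (j : ℕ) (z : FT (dim n)) : H.pt j (H.T j z) = H.pt j z + proj (H.r j) := by
  simp [pt, T]

lemma pt_mp (j : ℕ) : MeasurePreserving (H.pt j) volume volume := (H.D j).symm.mp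

lemma range_mono {i j : ℕ} (h : i ≤ j) {γ : UnitAddCircle} (hc : ∃ c, Sol.psi (H.w i) c = γ) :
    ∃ c, Sol.psi (H.w j) c = γ := by
  induction h with
  | refl => exact hc
  | @step j _ ih =>
    obtain ⟨c, hc⟩ := ih
    exact ⟨(H.stp j).pull c, ((H.stp j).hchar c).trans hc⟩

end Grp

end Vale.Agent.P109.Mix
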