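import Mathlib
import Vale.Agent.P109.Mix.Tower
import Vale.Agent.P109.Reduce

/-! The factor map onto the dual group and its injectivity off a null set (P109). -/

open MeasureTheory Filter Topology Set
open scoped ContDiff ENNReal

namespace Vale.Agent.P109.Mix

open Vale.Agent.P109.Sol (Dual)

lemma strip_continuousAt {q : ℕ} (hq : 0 < q) {c : UnitAddCircle}
    (h : Int.fract ((q:ℝ) * rp c) ≠ 0) : ContinuousAt (strip q) c := by
  set t := rp c
  have hU : {t' : ℝ | ⌊(q:ℝ) * t'⌋ = ⌊(q:ℝ) * t⌋} ∈ 𝓝 t := by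
    have hc : Continuous fun t' : ℝ => (q:ℝ) * t' := by fun_prop
    have h1 : Ioo ((⌊(q:ℝ) * t⌋ : ℤ) : ℝ) (⌊(q:ℝ) * t⌋ + 1) ∈ 𝓝 ((q:ℝ) * t) := by
      refine Ioo_mem_nhds ?_ (Int.lt_floor_add_one _)
      have := (Int.fract_nonneg ((q:ℝ) * t)).lt_of_ne' h
      rw [← Int.self_sub_floor] at this
      linarith
    filter_upwards [hc.continuousAt.preimage_mem_nhds h1] with t' ht'
    exact Int.floor_eq_iff.2 ⟨ht'.1.le, ht'.2⟩
  have himg := (QuotientAddGroup.isOpenQuotientMap_mk
    (N := AddSubgroup.zmultiples (1:ℝ))).isOpenMap.image_mem_nhds hU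
  have e : (QuotientAddGroup.mk t : UnitAddCircle) = c := coe_rp c
  rw [e] at himg
  refine ContinuousAt.congr_of_eventuallyEq (f := fun _ => strip q c) continuousAt_const ?_
  filter_upwards [himg] with c' hc'
  obtain ⟨t', ht', rfl⟩ := hc'
  show strip q (t' : UnitAddCircle) = strip q c
  rw [strip_coe hq, ht']
  rfl

namespace Grp

variable {n : ℕ} (H : Grp n)

lemma covered (γ : H.Γ) : ∃ m, ∀ j ≥ m, ∃ c, Sol.psi (H.w j) c = (γ : UnitAddCircle) := by
  obtain ⟨i, hi⟩ := H.enum_surj γ γ.2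
  refine ⟨2 * i + 1 + 1, fun j hj => H.range_mono hj ?_⟩
  obtain ⟨c, hc⟩ := (H.stp (2 * i + 1)).cover (by omega)
  refine ⟨c, hc.trans ?_⟩
  rw [← hi]; congr 1; omega

noncomputable def lvl (γ : H.Γ) : ℕ := (H.covered γ).choose

lemma lvl_spec (γ : H.Γ) {j : ℕ} (hj : H.lvl γ ≤ j) :
    ∃ c, Sol.psi (H.w j) c = (γ : UnitAddCircle) :=
  (H.covered γ).choose_spec j hj

open Classical in
/-- Stage `j` approximation of the value at `γ`. -/
noncomputable def W (j : ℕ) (γ : H.Γ) (z : FT (dim n)) : UnitAddCircle :=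
  if h : ∃ c, Sol.psi (H.w j) c = (γ : UnitAddCircle) then
    Sol.psi (snap (H.Q j) (H.pt j z)) h.choose else 0

lemma measurable_W (j : ℕ) (γ : H.Γ) : Measurable (H.W j γ) := by
  unfold W
  split_ifs with h
  · have hs : Measurable fun z => snap (H.Q j) (H.pt j z) := by
      refine measurable_pi_lambda _ fun i => ?_
      have hx : ∀ u, Measurable fun z => H.pt j z u := fun u =>
        (measurable_pi_apply u).comp (H.continuous_pt j).measurable
      cases i using Fin.cases with
      | zero =>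
        simp only [snap, Fin.cons_zero, strip]
        exact (Measurable.of_discrete (f := fun k : ℤ => k • zeta (H.Q j))).comp
          (Int.measurable_floor.comp (measurable_const.mul (measurable_rp.comp (hx _))))
      | succ a => simpa only [snap, Fin.cons_succ] using hx _
    have hp : Continuous fun x : Sol.Tr n => Sol.psi x h.choose := by
      unfold Sol.psi; exact continuous_finsetSum _ fun i _ => (continuous_apply i).zsmul _
    exact hp.measurable.comp hs
  · exact measurable_const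

lemma W_eq {j : ℕ} {γ : H.Γ} {c : Fin (n + 1) → ℤ} (hc : Sol.psi (H.w j) c = (γ : UnitAddCircle))
    (z : FT (dim n)) : H.W j γ z = Sol.psi (snap (H.Q j) (H.pt j z)) c := by
  have h : ∃ c, Sol.psi (H.w j) c = (γ : UnitAddCircle) := ⟨c, hc⟩
  rw [W, dif_pos h]
  exact snap_char (H.Q_pos j) (H.st j).hind (h.choose_spec.trans hc.symm) _

lemma W_add {j : ℕ} {a b : H.Γ} (ha : H.lvl a ≤ j) (hb : H.lvl b ≤ j) (z : FT (dim n)) :
    H.W j (a + b) z = H.W j a z + H.W j b z := by
  obtain ⟨c, hc⟩ := H.lvl_spec a ha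
  obtain ⟨d, hd⟩ := H.lvl_spec b hb
  rw [H.W_eq hc, H.W_eq hd, H.W_eq (c := c + d) (by rw [Sol.psi_addc, hc, hd]; rfl), Sol.psi_addc]

lemma W_T {j : ℕ} {γ : H.Γ} (h : H.lvl γ ≤ j) (z : FT (dim n)) :
    H.W j γ (H.T j z) = H.W j γ z + (γ : UnitAddCircle) := by
  obtain ⟨c, hc⟩ := H.lvl_spec γ h
  have e : snap (H.Q j) (H.pt j (H.T j z)) = snap (H.Q j) (H.pt j z) + H.w j := by
    rw [H.pt_T]; exact snap_add (H.Q_pos j) _ _
  rw [H.W_eq hc, H.W_eq hc, e, Sol.psi_add, hc]

/-- Exceptional set of step `j`. -/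
def B (j : ℕ) : Set (FT (dim n)) := H.pt (j + 1) ⁻¹' (H.stp j).Bad

lemma measurableSet_B (j : ℕ) : MeasurableSet (H.B j) :=
  (H.continuous_pt _).measurable (H.stp j).hBadm

lemma B_small (j : ℕ) : volume (H.B j) ≤ ENNReal.ofReal (3 * dl j) := by
  rw [B, (H.pt_mp (j + 1)).measure_preimage (H.stp j).hBadm.nullMeasurableSet]
  exact (H.stp j).hBad

lemma W_step {γ : H.Γ} {j : ℕ} (h : ∃ c, Sol.psi (H.w j) c = (γ : UnitAddCircle))
    {z : FT (dim n)} (hz : z ∉ H.B j) : H.W (j + 1) γ z = H.W j γ z := by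
  obtain ⟨c, hc⟩ := h
  have hc' : Sol.psi (H.w (j + 1)) ((H.stp j).pull c) = (γ : UnitAddCircle) := by
    rw [H.w_succ, (H.stp j).hchar c]; exact hc
  have hg := (H.stp j).hgood _ hz c
  rw [H.W_eq hc, H.W_eq hc', H.Q_succ, ← H.pt_succ j z]
  exact hg.symm

/-- Exceptional set of all steps from `m` on. -/
def Tail (m : ℕ) : Set (FT (dim n)) := ⋃ l : ℕ, H.B (l + m)

lemma measurableSet_Tail (m : ℕ) : MeasurableSet (H.Tail m) :=
  MeasurableSet.iUnion fun _ => H.measurableSet_B _

lemma Tail_small (m : ℕ) : volume (H.Tail m) ≤ ENNReal.ofReal (3 * (1/2 : ℝ) ^ m) := by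
  refine (measure_iUnion_le _).trans ((ENNReal.tsum_le_tsum fun l => H.B_small _).trans ?_)
  have hs : HasSum (fun l : ℕ => 3 * dl (l + m)) (3 * (1/2 : ℝ) ^ m) := by
    have h2 := (hasSum_geometric_two' (1 : ℝ)).mul_left (3 * (1/2 : ℝ) ^ m)
    rw [mul_one] at h2
    refine h2.congr_fun fun l => ?_
    simp only [dl, pow_add, pow_one, div_pow, one_pow]
    ring
  rw [← ENNReal.ofReal_tsum_of_nonneg (fun l => by have := dl_pos (l + m); positivity) hs.summable,
    hs.tsum_eq]

lemma not_B {m l : ℕ} (hl : m ≤ l) {z : FT (dim n)} (hz : z ∉ H.Tail m) : z ∉ H.B l := fun hB =>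
  hz (mem_iUnion.2 ⟨l - m, by rwa [Nat.sub_add_cancel hl]⟩)

lemma W_stable {γ : H.Γ} {m j : ℕ} (hn : ∃ c, Sol.psi (H.w m) c = (γ : UnitAddCircle))
    (hm : m ≤ j) {z : FT (dim n)} (hz : z ∉ H.Tail m) : H.W j γ z = H.W m γ z := by
  induction j, hm using Nat.le_induction with
  | base => rfl
  | succ j hj ih => rw [H.W_step (H.range_mono hj hn) (H.not_B hj hz), ih]

lemma ae_eventually_tail : ∀ᵐ z ∂(volume : Measure (FT (dim n))), ∀ᶠ m in atTop, z ∉ H.Tail m := by
  apply ae_eventually_notMem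
  refine ne_top_of_le_ne_top ?_ (ENNReal.tsum_le_tsum fun m => H.Tail_small m)
  rw [← ENNReal.ofReal_tsum_of_nonneg (fun m => by positivity)
    (summable_geometric_two.mul_left _)]
  exact ENNReal.ofReal_ne_top

/-- Points which are eventually good. -/
def GoodPts : Set (FT (dim n)) := {z | ∀ᶠ m in atTop, z ∉ H.Tail m}

lemma measurableSet_GoodPts : MeasurableSet H.GoodPts := by
  simp only [GoodPts, eventually_atTop, setOf_exists, setOf_forall]
  exact MeasurableSet.iUnion fun a => MeasurableSet.iInter fun b => MeasurableSet.iInter fun _ =>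
    (H.measurableSet_Tail b).compl

noncomputable def phi0 (z : FT (dim n)) (γ : H.Γ) : UnitAddCircle :=
  H.GoodPts.indicator (fun z => limUnder atTop (fun j => H.W j γ z)) z

lemma phi0_eq {z : FT (dim n)} (hg : z ∈ H.GoodPts) {γ : H.Γ} {m : ℕ}
    (hn : ∃ c, Sol.psi (H.w m) c = (γ : UnitAddCircle)) (hz : z ∉ H.Tail m) :
    H.phi0 z γ = H.W m γ z := by
  rw [phi0, indicator_of_mem hg]
  refine Tendsto.limUnder_eq (tendsto_const_nhds.congr' ?_)
  filter_upwards [eventually_ge_atTop m] with j hj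
  exact (H.W_stable hn hj hz).symm

lemma phi0_add (z : FT (dim n)) (a b : H.Γ) : H.phi0 z (a + b) = H.phi0 z a + H.phi0 z b := by
  by_cases hg : z ∈ H.GoodPts
  · obtain ⟨m, hm, h1, h2, h3⟩ := ((show ∀ᶠ m in atTop, z ∉ H.Tail m from hg).and
      ((eventually_ge_atTop (H.lvl a)).and ((eventually_ge_atTop (H.lvl b)).and
        (eventually_ge_atTop (H.lvl (a + b)))))).exists
    rw [H.phi0_eq hg (H.lvl_spec _ h1) hm, H.phi0_eq hg (H.lvl_spec _ h2) hm,
      H.phi0_eq hg (H.lvl_spec _ h3) hm, H.W_add h1 h2]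
  · simp [phi0, hg]

/-- The factor map onto the dual group. -/
noncomputable def phi (z : FT (dim n)) : Dual H.Γ := ⟨H.phi0 z, H.phi0_add z⟩

lemma measurable_phi : Measurable H.phi := by
  refine Measurable.subtype_mk (measurable_pi_lambda _ fun γ => ?_)
  exact (StronglyMeasurable.limUnder fun j =>
    (H.measurable_W j γ).stronglyMeasurable).measurable.indicator H.measurableSet_GoodPts

lemma Skew_small {γ : H.Γ} {m : ℕ} (hm : H.lvl γ ≤ m) :
    volume {z | H.W m γ (H.S z) ≠ H.W m γ z + (γ : UnitAddCircle)} ≤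
      ENNReal.ofReal (6 * (1/2 : ℝ) ^ m) := by
  set Z : Set (FT (dim n)) := (H.pt m ∘ H.S) ⁻¹'
    {u | Int.fract ((H.Q m : ℝ) * rp (u (xi 0))) ∈ ({0} : Set ℝ)}
  have hZ : volume Z = 0 := by
    have hmeas : MeasurableSet {u : FT (dim n) |
        Int.fract ((H.Q m : ℝ) * rp (u (xi 0))) ∈ ({0} : Set ℝ)} := by
      have : Measurable fun u : FT (dim n) => Int.fract ((H.Q m : ℝ) * rp (u (xi 0))) := by fun_prop
      exact this (measurableSet_singleton _)
    rw [((H.pt_mp m).comp H.S_mp).measure_preimage hmeas.nullMeasurableSet]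
    simpa using coord_small (xi (0 : Fin (n + 1))) (H.Q m) (H.Q_pos m) _
      (measurableSet_singleton (0:ℝ)) 0 0 le_rfl (by simp)
  set K : ℕ → Set (FT (dim n)) := fun J => ⋂ j ≥ max J m, (H.Tail m ∪ H.T j ⁻¹' H.Tail m)
  have hsub : {z | H.W m γ (H.S z) ≠ H.W m γ z + (γ : UnitAddCircle)} ⊆ Z ∪ ⋃ J, K J := by
    intro z hz
    by_contra hcon
    simp only [mem_union, not_or] at hcon
    obtain ⟨hzZ, hcon⟩ := hcon
    apply hz
    have hfr : ∃ᶠ j in atTop, H.W m γ (H.T j z) = H.W m γ z + (γ : UnitAddCircle) := by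
      rw [frequently_atTop]
      intro J
      simp only [mem_iUnion, not_exists] at hcon
      have := hcon J
      simp only [K, mem_iInter, mem_union, mem_preimage, not_forall, not_or] at this
      obtain ⟨j, hj, h1, h2⟩ := this
      have hjm : m ≤ j := le_trans (le_max_right _ _) hj
      refine ⟨j, le_trans (le_max_left _ _) hj, ?_⟩
      rw [← H.W_stable (H.lvl_spec γ hm) hjm h2, H.W_T (hm.trans hjm),
        H.W_stable (H.lvl_spec γ hm) hjm h1]
    have hca : ContinuousAt (H.W m γ) (H.S z) := by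
      obtain ⟨c, hc⟩ := H.lvl_spec γ hm
      have e : H.W m γ = fun u => Sol.psi (snap (H.Q m) (H.pt m u)) c := funext (H.W_eq hc)
      rw [e]
      have hp : Continuous fun x : Sol.Tr n => Sol.psi x c := by
        unfold Sol.psi; exact continuous_finsetSum _ fun i _ => (continuous_apply i).zsmul _
      have hs : ContinuousAt (fun u => snap (H.Q m) (H.pt m u)) (H.S z) := by
        refine continuousAt_pi.2 fun i => ?_
        cases i using Fin.cases with
        | zero =>
          simp only [snap, Fin.cons_zero]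
          exact (strip_continuousAt (H.Q_pos m) (by simpa [Z] using hzZ)).comp
            ((continuous_apply _).comp (H.continuous_pt m)).continuousAt
        | succ a =>
          simp only [snap, Fin.cons_succ]
          exact ((continuous_apply _).comp (H.continuous_pt m)).continuousAt
      exact hp.continuousAt.comp hs
    exact (isClosed_singleton (x := H.W m γ z + (γ : UnitAddCircle))).mem_of_frequently_of_tendsto
      hfr (hca.tendsto.comp (H.T_tendsto z))
  refine (measure_mono hsub).trans ((measure_union_le _ _).trans ?_)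
  rw [hZ, zero_add, Monotone.measure_iUnion]
  · refine iSup_le fun J => ?_
    refine (measure_mono (iInter₂_subset (max J m) le_rfl)).trans ((measure_union_le _ _).trans ?_)
    rw [(H.T_mp _).measure_preimage (H.measurableSet_Tail m).nullMeasurableSet,
      show (6:ℝ) * (1/2) ^ m = 3 * (1/2) ^ m + 3 * (1/2) ^ m by ring,
      ENNReal.ofReal_add (by positivity) (by positivity)]
    exact add_le_add (H.Tail_small m) (H.Tail_small m)
  · intro a b hab
    refine subset_iInter₂ fun j hj => iInter₂_subset j ?_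
    exact le_trans (max_le_max_right m hab) hj

variable [Countable H.Γ]

lemma ae_phi_S :
    ∀ᵐ z ∂(volume : Measure (FT (dim n))), H.phi (H.S z) = Gen.tr (Gen.incl H.Γ) (H.phi z) := by
  have hsk : ∀ᵐ z ∂(volume : Measure (FT (dim n))), ∀ γ : H.Γ, ∀ᶠ m in atTop,
      z ∉ {z | H.lvl γ ≤ m ∧ H.W m γ (H.S z) ≠ H.W m γ z + (γ : UnitAddCircle)} := by
    rw [ae_all_iff]
    intro γ
    apply ae_eventually_notMem
    refine ne_top_of_le_ne_top ?_ (ENNReal.tsum_le_tsum
      (g := fun m => ENNReal.ofReal (6 * (1/2 : ℝ) ^ m)) fun m => ?_)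
    · rw [← ENNReal.ofReal_tsum_of_nonneg (fun m => by positivity)
        (summable_geometric_two.mul_left _)]
      exact ENNReal.ofReal_ne_top
    · by_cases hm : H.lvl γ ≤ m
      · exact (measure_mono fun z hz => hz.2).trans (H.Skew_small hm)
      · simp [hm]
  filter_upwards [hsk, H.ae_eventually_tail, H.S_mp.quasiMeasurePreserving.ae H.ae_eventually_tail]
    with z h1 h2 h3
  apply Subtype.ext
  funext γ
  obtain ⟨m, hn, g1, g2, g3⟩ :=
    ((eventually_ge_atTop (H.lvl γ)).and ((h1 γ).and (h2.and h3))).exists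
  show H.phi0 (H.S z) γ = H.phi0 z γ + (γ : UnitAddCircle)
  rw [H.phi0_eq h3 (H.lvl_spec γ hn) g3, H.phi0_eq h2 (H.lvl_spec γ hn) g2]
  by_contra hne
  exact g1 ⟨hn, hne⟩

omit [Countable H.Γ] in
/-- Good points with the same image coincide. -/
lemma phi_injOn : InjOn H.phi H.GoodPts := by
  intro z hz z' hz' he
  obtain ⟨m, hm, hm'⟩ := ((show ∀ᶠ m in atTop, z ∉ H.Tail m from hz).and
    (show ∀ᶠ m in atTop, z' ∉ H.Tail m from hz')).exists
  -- equal snapped coordinates
  have hsn : ∀ j ≥ m, snap (H.Q j) (H.pt j z) = snap (H.Q j) (H.pt j z') := by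
    intro j hj
    funext i
    have hγ : H.w j i ∈ H.Γ := by
      cases i using Fin.cases with
      | zero => exact (H.st j).hζ
      | succ a => exact (H.st j).hv a
    set γ : H.Γ := ⟨H.w j i, hγ⟩
    have hc : Sol.psi (H.w j) (Pi.single i 1) = (γ : UnitAddCircle) := Sol.psi_single _ _
    have hT : ∀ u, u ∉ H.Tail m → u ∉ H.Tail j := fun u hu hu' => by
      obtain ⟨l, hl⟩ := mem_iUnion.1 hu'
      exact H.not_B (by omega : m ≤ l + j) hu hl
    have e1 := H.phi0_eq hz ⟨_, hc⟩ (hT z hm)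
    have e2 := H.phi0_eq hz' ⟨_, hc⟩ (hT z' hm')
    have e3 : H.phi0 z γ = H.phi0 z' γ := congrArg (fun χ : Dual H.Γ => χ.1 γ) he
    rw [e1, e2, H.W_eq hc, H.W_eq hc, Sol.psi_single, Sol.psi_single] at e3
    exact e3
  set dd : ℕ → Fin (dim n) → ℝ := fun j u => dist (H.pt j z u) (H.pt j z' u) with hdd
  have hstep : ∀ j ≥ m,
      ((H.stp j).isT = true →
        (∀ i, i ≠ 0 → dd j (yi i) = dd (j + 1) (yi (i + 1))) ∧ dd j (yi 0) ≤ H.μ j ∧
        (dd (j + 1) (yi 1) ≤ H.μ j → dd j (xi 0) ≤ dd (j + 1) (yi 1))) ∧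
      ((H.stp j).isT = false →
        dd j (xi 0) = dd (j + 1) (xi 0) ∧ (∀ i, i ≠ 0 → dd j (yi i) = dd (j + 1) (yi i)) ∧
        (dd (j + 1) (yi 0) ≤ H.μ j → dd j (yi 0) ≤ dd (j + 1) (yi 0)) ∧
        (H.stp (j + 1)).isT = true) := by
    intro j hj
    have hb := H.not_B hj hm
    have hb' := H.not_B hj hm'
    have hs := hsn (j + 1) (by omega)
    constructor
    · intro hT
      obtain ⟨h1, h2⟩ := (H.stp j).hT hT
      obtain ⟨h3, h4⟩ := h2 _ hb _ hb' hs
      simp only [hdd, ← H.pt_succ j]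
      exact ⟨fun i hi => congrArg₂ dist (h1 _ i hi) (h1 _ i hi), h3, h4⟩
    · intro hS
      obtain ⟨h1, h2, h3⟩ := (H.stp j).hS hS
      simp only [hdd, ← H.pt_succ j]
      refine ⟨congrArg₂ dist (h1 _) (h1 _),
        fun i hi => congrArg₂ dist (h2 _ i hi) (h2 _ i hi), h3 _ hb _ hb' hs, ?_⟩
      refine (H.stp (j + 1)).heven ?_
      by_contra hne
      have := (H.stp j).heven (by omega)
      rw [hS] at this
      exact Bool.false_ne_true this
  -- the first slot
  have hslot0 : ∀ j ≥ m, dd j (yi 0) ≤ H.μ j := by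
    intro j hj
    cases hT : (H.stp j).isT with
    | true => exact ((hstep j hj).1 hT).2.1
    | false =>
      obtain ⟨-, -, h3, hnext⟩ := (hstep j hj).2 hT
      have h4 := (((hstep (j + 1) (by omega)).1 hnext).2.1).trans (H.μ_succ j)
      exact (h3 h4).trans h4
  -- all slots
  have hslot : ∀ i : Fin (n + 1), ∀ j ≥ m, dd j (yi i) ≤ H.μ j := by
    have key : ∀ t : ℕ, ∀ i : Fin (n + 1), (n + 1 - (i:ℕ)) % (n + 1) = t → ∀ j ≥ m,
        dd j (yi i) ≤ H.μ j := by
      intro t
      induction t using Nat.strong_induction_on with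
      | _ t ih =>
        intro i hit j hj
        by_cases hi : i = 0
        · subst hi; exact hslot0 j hj
        · have hT : ∀ l ≥ m, (H.stp l).isT = true → dd l (yi i) ≤ H.μ l := by
            intro l hl hlT
            rw [((hstep l hl).1 hlT).1 i hi]
            refine (ih _ ?_ (i + 1) rfl (l + 1) (by omega)).trans (H.μ_succ l)
            rw [← hit]
            have hi0 : (i:ℕ) ≠ 0 := fun h => hi (Fin.ext h)
            have hin := i.isLt
            rw [Nat.mod_eq_of_lt (show n + 1 - (i:ℕ) < n + 1 by omega)]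
            rw [Fin.val_add_one]
            split_ifs with hlast
            · simp
              omega
            · have : (i:ℕ) < n := by
                rcases Nat.lt_or_ge (i:ℕ) n with h | h
                · exact h
                · exact absurd (Fin.ext (show (i:ℕ) = n by omega)) hlast
              rw [Nat.mod_eq_of_lt (by omega)]
              omega
          cases hjT : (H.stp j).isT with
          | true => exact hT j hj hjT
          | false =>
            obtain ⟨-, h2, -, hnext⟩ := (hstep j hj).2 hjT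
            rw [h2 i hi]
            exact (hT (j + 1) (by omega) hnext).trans (H.μ_succ j)
    exact fun i => key _ i rfl
  have hx0 : ∀ j ≥ m, dd j (xi 0) ≤ H.μ j := by
    have hT : ∀ l ≥ m, (H.stp l).isT = true → dd l (xi 0) ≤ H.μ l := by
      intro l hl hlT
      have h1 := (hslot 1 (l + 1) (by omega)).trans (H.μ_succ l)
      exact (((hstep l hl).1 hlT).2.2 h1).trans h1
    intro j hj
    cases hjT : (H.stp j).isT with
    | true => exact hT j hj hjT
    | false =>
      obtain ⟨h1, -, -, hnext⟩ := (hstep j hj).2 hjT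
      rw [h1]
      exact (hT (j + 1) (by omega) hnext).trans (H.μ_succ j)
  have hclose : ∀ j ≥ m, dist z z' ≤ (1/2 : ℝ) ^ j := by
    intro j hj
    have hd : dist (H.pt j z) (H.pt j z') ≤ H.μ j := by
      rw [dist_pi_le_iff (H.μ_pos j).le]
      intro u
      rcases index_cases u with ⟨i, rfl⟩ | ⟨i, rfl⟩
      · cases i using Fin.cases with
        | zero => exact hx0 j hj
        | succ a =>
          have := congrFun (hsn j hj) a.succ
          simp only [snap, Fin.cons_succ] at this
          rw [this, dist_self]; exact (H.μ_pos j).le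
      · exact hslot i j hj
    simpa [pt, D] using (H.st j).hmod _ _ hd
  have h0 : dist z z' ≤ 0 :=
    ge_of_tendsto (tendsto_pow_atTop_nhds_zero_of_lt_one (by norm_num : (0:ℝ) ≤ 1/2) (by norm_num))
      (eventually_atTop.2 ⟨m, hclose⟩)
  exact dist_le_zero.1 h0

omit [Countable H.Γ] in
lemma GoodPts_conull : volume H.GoodPtsᶜ = 0 := mem_ae_iff.1 H.ae_eventually_tail

end Grp

end Vale.Agent.P109.Mix
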